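import Vale.Agent.P022.H30.FaithA
import Vale.Agent.P022.H239.L3.A10
import Vale.Agent.P022.H132.L3.End

/-!
# P022-L3, row [FAITH]: the output of chapter A
-/

open scoped NumberField

namespace Vale.Agent.P022.H30

open Vale.Agent.P022 Vale.Agent.P022.H346 Vale.Agent.P022.H132.Z
open Vale.Agent.P022.H239.L3 (Rk' D_pow_mem')

/-- The traces are nilpotent modulo two. -/
theorem two_dvd_pow {i : ℕ} (w : WD i) (g : GQ) : ∃ N, ∀ A, N ≤ A → (2 : w.T) ∣ w.t g ^ A := by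
  obtain ⟨U, hU, hc⟩ := w.cont 1
  obtain ⟨k, hk⟩ := hU.two g
  have sq : ∀ h : GQ, (2 : w.T) ∣ w.t h ^ 2 - w.t (h ^ 2) := by
    intro h
    have := w.htf.mul h h
    rw [mul_inv_cancel, w.htf.one] at this
    refine ⟨(w.d h : w.T), ?_⟩
    rw [pow_two, pow_two, this]
    ring
  have pw : ∀ k, (2 : w.T) ∣ w.t g ^ 2 ^ k - w.t (g ^ 2 ^ k) := by
    intro k
    induction k with
    | zero => simp
    | succ k ih =>
      have e : w.t g ^ 2 ^ (k + 1) - w.t (g ^ 2 ^ (k + 1)) =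
          (w.t g ^ 2 ^ k - w.t (g ^ 2 ^ k)) * (w.t g ^ 2 ^ k + w.t (g ^ 2 ^ k)) +
          (w.t (g ^ 2 ^ k) ^ 2 - w.t ((g ^ 2 ^ k) ^ 2)) := by
        rw [pow_succ 2 k, pow_mul, pow_mul]
        ring
      rw [e]
      exact dvd_add (ih.mul_right _) (sq _)
  have h1 : (2 : w.T) ∣ w.t (g ^ 2 ^ k) := by
    have := (hc 1 _ hk).1
    rw [one_mul, w.htf.one, pow_one] at this
    have h2 := dvd_add this (dvd_refl (2 : w.T))
    rwa [sub_add_cancel] at h2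
  have h3 : (2 : w.T) ∣ w.t g ^ 2 ^ k := by
    have := dvd_add (pw k) h1
    rwa [sub_add_cancel] at this
  exact ⟨2 ^ k, fun A hA => h3.trans (pow_dvd_pow _ hA)⟩

theorem dvdX_of_dvd {T : Type} [CommRing T] {x b a : T} (h : b ∣ a) : DvdX x b a := by
  obtain ⟨y, rfl⟩ := h
  exact ⟨y, rfl⟩

/-- The evaluation of the word. -/
theorem ev_word {i : ℕ} (w : WD i) {l l' : PA 3} {m m' : ℕ} {g h : GQ} (P : ℕ → ℕ → ℤ) (A : ℕ)
    (hg : (2 : w.T) ∣ w.t g - w.ev (wd l m)) (hh : (2 : w.T) ∣ w.t h - w.ev (wd l' m'))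
    (hd : DvdX (w.t g) 2 (∑ p ∈ Finset.range A, ∑ q ∈ Finset.range A,
      (P p q : w.T) * w.t g ^ p * w.t h ^ q)) :
    (2 : w.T) ∣ w.ev (wd l m * ∑ p ∈ Finset.range A, ∑ q ∈ Finset.range A,
        (P p q : FreeAlgebra ℤ (Gen 3)) * wd l m ^ p * wd l' m' ^ q) := by
  set π := Ideal.Quotient.mk (Ideal.span {(2 : w.T)}) with hπ
  have hz : ∀ a : w.T, π a = 0 ↔ (2 : w.T) ∣ a := fun a => by
    rw [hπ, Ideal.Quotient.eq_zero_iff_mem, Ideal.mem_span_singleton]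
  have hg' : π (w.ev (wd l m)) = π (w.t g) := by
    rw [eq_comm, ← sub_eq_zero, ← map_sub, hz]
    exact hg
  have hh' : π (w.ev (wd l' m')) = π (w.t h) := by
    rw [eq_comm, ← sub_eq_zero, ← map_sub, hz]
    exact hh
  obtain ⟨y, hy⟩ := hd
  rw [← hz, map_mul, map_mul, hg', map_sum, map_sum]
  have e : π (w.t g) * ∑ p ∈ Finset.range A, π (w.ev (∑ q ∈ Finset.range A,
      (P p q : FreeAlgebra ℤ (Gen 3)) * wd l m ^ p * wd l' m' ^ q)) =
      π (w.t g * ∑ p ∈ Finset.range A, ∑ q ∈ Finset.range A,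
      (P p q : w.T) * w.t g ^ p * w.t h ^ q) := by
    rw [map_mul, map_sum]
    congr 1
    refine Finset.sum_congr rfl fun p _ => ?_
    rw [map_sum, map_sum, map_sum]
    refine Finset.sum_congr rfl fun q _ => ?_
    rw [map_mul, map_mul, map_mul, map_mul, map_mul, map_mul, _root_.map_pow, _root_.map_pow,
      _root_.map_pow, _root_.map_pow, _root_.map_pow, _root_.map_pow, hg', hh', map_intCast,
      map_intCast]
  rw [e, hy, hz]
  exact ⟨w.t g * y, by ring⟩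

/-- **Row [FAITH].** -/
theorem faith (W : ∀ i : ℕ, Even i → WD i) (hW : ∀ i hi, 0 < i → H239.L3.Low (W i hi)) {c τ σ : GQ}
    (H : Gens c τ σ) : Faith W c τ σ := by
  intro s P hP
  by_contra hne
  push Not at hne
  obtain ⟨K, N, hKN⟩ := words_main P hne
  have hi : Even (2 ^ (s + 1) * (24 * K + 4)) := ⟨2 ^ s * (24 * K + 4), by rw [pow_succ]; ring⟩
  obtain ⟨Pi, hPi, h3, ht, hs⟩ := H.pt
  obtain ⟨l, m, hm, l3, -, dl⟩ := H601.frob_sigma (W _ hi) hPi h3 hs ∅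
  obtain ⟨l', m', hm', l5, -, dl'⟩ := H601.frob_gen (W _ hi) hPi h3 H.conj ht hs ∅
  obtain ⟨N1, hN1⟩ := two_dvd_pow (W _ hi) σ
  obtain ⟨N2, hN2⟩ := two_dvd_pow (W _ hi) (c * τ * σ)
  have hd := hP _ hi (by positivity) (Dvd.intro _ rfl) (N + N1 + N2)
    (dvdX_of_dvd (hN1 _ (by omega))) (dvdX_of_dvd (hN2 _ (by omega)))
  have key := ev_word (W _ hi) P (N + N1 + N2) dl dl' hd
  refine hKN l l' m m' hm hm' l3 l5 (N + N1 + N2) (by omega) fun n hn hn' => ?_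
  refine (hW _ hi (by positivity)).low _ key _ (D_pow_mem' (by omega) hi ?_)
  have h2 : 1 ≤ 2 ^ (s + 1) := Nat.one_le_two_pow
  calc 12 * n + 4 ≤ 24 * K + 4 := by omega
    _ ≤ 2 ^ (s + 1) * (24 * K + 4) := Nat.le_mul_of_pos_left _ (by positivity)

end Vale.Agent.P022.H30
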