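import Mathlib

/-!
# The content of an exponent, and the operators that lower it

`cont n` is the value at `8` of the expansion of `n` in base `16`.  A linear operator on
`F_2[X]` which satisfies the recursion of the Hecke operator `T_3` (resp. `T_5`) on the powers
of `Δ` lowers the content of the exponents.
-/

namespace Vale.Agent.P022.H30

open Polynomial

/-- The content of an exponent. -/
def cont (n : ℕ) : ℕ := Nat.ofDigits 8 (Nat.digits 16 n)

theorem cont_rec (n : ℕ) : cont n = n % 16 + 8 * cont (n / 16) := by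
  rcases Nat.eq_zero_or_pos n with h | h
  · subst h
    simp [cont]
  · unfold cont
    rw [Nat.digits_def' (by norm_num) h, Nat.ofDigits_cons]

theorem cont_zero : cont 0 = 0 := by simp [cont]

theorem cont_small {n : ℕ} (h : n < 16) : cont n = n := by
  rw [cont_rec, Nat.mod_eq_of_lt h, Nat.div_eq_of_lt h, cont_zero]
  rfl

theorem cont_succ_le (n : ℕ) : cont (n + 1) ≤ cont n + 1 := by
  induction n using Nat.strong_induction_on with
  | _ n ih =>
    rw [cont_rec (n + 1), cont_rec n]
    by_cases h : n % 16 = 15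
    · have h1 : (n + 1) % 16 = 0 := by omega
      have h2 : (n + 1) / 16 = n / 16 + 1 := by omega
      rw [h1, h2, h]
      have h3 := ih (n / 16) (by omega)
      omega
    · have h1 : (n + 1) % 16 = n % 16 + 1 := by omega
      have h2 : (n + 1) / 16 = n / 16 := by omega
      rw [h1, h2]
      omega

theorem cont_add_le (a b : ℕ) : cont (a + b) ≤ cont a + cont b := by
  induction hs : a + b using Nat.strong_induction_on generalizing a b with
  | _ s ih =>
    subst hs
    rcases Nat.eq_zero_or_pos (a + b) with h0 | h0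
    · obtain ⟨ha, hb⟩ : a = 0 ∧ b = 0 := by omega
      subst ha; subst hb
      simp [cont_zero]
    rw [cont_rec (a + b), cont_rec a, cont_rec b]
    by_cases h : a % 16 + b % 16 < 16
    · have h1 : (a + b) % 16 = a % 16 + b % 16 := by omega
      have h2 : (a + b) / 16 = a / 16 + b / 16 := by omega
      rw [h1, h2]
      have h3 := ih (a / 16 + b / 16) (by omega) (a / 16) (b / 16) rfl
      omega
    · have h1 : (a + b) % 16 = a % 16 + b % 16 - 16 := by omega
      have h2 : (a + b) / 16 = a / 16 + b / 16 + 1 := by omega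
      rw [h1, h2]
      have h3 := ih (a / 16 + b / 16) (by omega) (a / 16) (b / 16) rfl
      have h4 := cont_succ_le (a / 16 + b / 16)
      omega

theorem cont_mul_pow (j m : ℕ) : cont (m * 16 ^ j) = cont m * 8 ^ j := by
  induction j with
  | zero => simp
  | succ j ih =>
    rw [pow_succ, ← mul_assoc, cont_rec, Nat.mul_mod_left, Nat.mul_div_cancel _ (by norm_num), ih,
      pow_succ]
    ring

/-- A new top digit. -/
theorem cont_top (i n : ℕ) (h : n < 15 * 16 ^ i) : cont (16 ^ i + n) = 8 ^ i + cont n := by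
  induction i generalizing n with
  | zero =>
    have h1 : n < 15 := by simpa using h
    rw [pow_zero, pow_zero, cont_small (by omega), cont_small (by omega)]
  | succ i ih =>
    have h1 : (16 ^ (i + 1) + n) % 16 = n % 16 := by
      rw [pow_succ]; omega
    have h2 : (16 ^ (i + 1) + n) / 16 = 16 ^ i + n / 16 := by
      rw [pow_succ]; omega
    have h3 : n / 16 < 15 * 16 ^ i := by
      rw [pow_succ] at h; omega
    rw [cont_rec, h1, h2, ih _ h3, cont_rec n, pow_succ]
    ring

theorem cont_parity (n : ℕ) : cont n % 2 = n % 2 := by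
  rw [cont_rec]
  omega

theorem cont_lt_pow (k n : ℕ) (h : n < 16 ^ k) : 7 * cont n + 15 ≤ 15 * 8 ^ k := by
  induction k generalizing n with
  | zero =>
    have h1 : n = 0 := by simpa using h
    subst h1
    simp [cont_zero]
  | succ k ih =>
    have h1 : n / 16 < 16 ^ k := by
      rw [pow_succ] at h; omega
    have h2 := ih _ h1
    rw [cont_rec, pow_succ]
    have h3 : n % 16 < 16 := Nat.mod_lt _ (by norm_num)
    omega

/-- The content of `n` is `O(n^(3/4))`. -/
theorem cont_pow_le (n : ℕ) : cont n ^ 4 ≤ 18 ^ 4 * n ^ 3 := by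
  rcases Nat.eq_zero_or_pos n with h | h
  · subst h
    simp [cont_zero]
  set i := Nat.log 16 n with hi
  have h1 : 16 ^ i ≤ n := Nat.pow_log_le_self 16 h.ne'
  have h2 : n < 16 ^ (i + 1) := Nat.lt_pow_succ_log_self (by norm_num) n
  have h3 := cont_lt_pow _ _ h2
  have h4 : cont n ≤ 18 * 8 ^ i := by
    rw [pow_succ] at h3
    omega
  calc cont n ^ 4 ≤ (18 * 8 ^ i) ^ 4 := Nat.pow_le_pow_left h4 4
    _ = 18 ^ 4 * (16 ^ i) ^ 3 := by
        rw [mul_pow, ← pow_mul, ← pow_mul]
        congr 1
        rw [show (8 : ℕ) = 2 ^ 3 by norm_num, show (16 : ℕ) = 2 ^ 4 by norm_num, ← pow_mul,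
          ← pow_mul]
        congr 1
        ring
    _ ≤ 18 ^ 4 * n ^ 3 := Nat.mul_le_mul_left _ (Nat.pow_le_pow_left h1 3)

/-! ### The recursions -/

section

variable {u : ℕ → (ZMod 2)[X]}

private theorem two_eq : (2 : (ZMod 2)[X]) = 0 := CharTwo.two_eq_zero

/-- The recursion of `T_3`, at all powers of two. -/
theorem rec3 (h : ∀ n, u (n + 4) = X * u (n + 1) + X ^ 4 * u n) (k n : ℕ) :
    u (n + 4 * 2 ^ k) = X ^ (2 ^ k) * u (n + 2 ^ k) + X ^ (4 * 2 ^ k) * u n := by
  induction k generalizing n with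
  | zero => simpa using h n
  | succ k ih =>
    set q := 2 ^ k with hq
    have e1 : u (n + 4 * 2 ^ (k + 1)) = u ((n + 4 * q) + 4 * q) := by
      congr 1; rw [pow_succ, ← hq]; ring
    have e2 : u ((n + 4 * q) + q) = u ((n + q) + 4 * q) := by congr 1; ring
    have e3 : u (n + 2 ^ (k + 1)) = u ((n + q) + q) := by
      congr 1; rw [pow_succ, ← hq]; ring
    rw [e1, ih, e2, ih (n + q), ih n, e3]
    have e4 : (X : (ZMod 2)[X]) ^ (2 ^ (k + 1)) = X ^ q * X ^ q := by
      rw [← pow_add, pow_succ, ← hq]; congr 1; ring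
    have e5 : (X : (ZMod 2)[X]) ^ (4 * 2 ^ (k + 1)) = X ^ (4 * q) * X ^ (4 * q) := by
      rw [← pow_add, pow_succ, ← hq]; congr 1; ring
    rw [e4, e5]
    linear_combination (X ^ q * X ^ (4 * q) * u (n + q)) * two_eq

/-- The recursion of `T_5`, in the short form. -/
theorem rec5_base (h : ∀ n, u (n + 6) = X * u (n + 1) + X ^ 2 * u (n + 4) + X ^ 4 * u (n + 2) +
    X ^ 6 * u n) (n : ℕ) :
    u (n + 8) = X * u (n + 3) + X ^ 3 * u (n + 1) + X ^ 8 * u n := by
  have h1 := h (n + 2)
  have h2 := h n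
  rw [show n + 2 + 6 = n + 8 by ring, show n + 2 + 1 = n + 3 by ring,
    show n + 2 + 4 = n + 6 by ring, show n + 2 + 2 = n + 4 by ring] at h1
  rw [h1, h2]
  linear_combination (X ^ 4 * u (n + 4) + X ^ 6 * u (n + 2)) * two_eq

/-- The recursion of `T_5`, at all powers of two. -/
theorem rec5 (h : ∀ n, u (n + 8) = X * u (n + 3) + X ^ 3 * u (n + 1) + X ^ 8 * u n) (k n : ℕ) :
    u (n + 8 * 2 ^ k) = X ^ (2 ^ k) * u (n + 3 * 2 ^ k) + X ^ (3 * 2 ^ k) * u (n + 2 ^ k) +
      X ^ (8 * 2 ^ k) * u n := by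
  induction k generalizing n with
  | zero => simpa using h n
  | succ k ih =>
    set q := 2 ^ k with hq
    have p : 2 ^ (k + 1) = 2 * q := by rw [pow_succ, ← hq]; ring
    rw [p]
    have e1 : u (n + 8 * (2 * q)) = u ((n + 8 * q) + 8 * q) := by congr 1; ring
    have e2 : u ((n + 8 * q) + 3 * q) = u ((n + 3 * q) + 8 * q) := by congr 1; ring
    have e3 : u ((n + 8 * q) + q) = u ((n + q) + 8 * q) := by congr 1; ring
    have f1 : u (n + 3 * q + 3 * q) = u (n + 3 * (2 * q)) := by congr 1; ring
    have f2 : u (n + 3 * q + q) = u (n + 4 * q) := by congr 1; ring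
    have f3 : u (n + q + 3 * q) = u (n + 4 * q) := by congr 1; ring
    have f4 : u (n + q + q) = u (n + 2 * q) := by congr 1; ring
    rw [e1, ih (n + 8 * q), e2, e3, ih (n + 3 * q), ih (n + q), ih n, f1, f2, f3, f4]
    have g : ∀ a b : ℕ, (X : (ZMod 2)[X]) ^ (a * q) = X ^ (a * q) := fun _ _ => rfl
    have g2 : (X : (ZMod 2)[X]) ^ (2 * q) = X ^ q * X ^ q := by rw [← pow_add]; congr 1; ring
    have g3 : (X : (ZMod 2)[X]) ^ (3 * q) = X ^ q * X ^ q * X ^ q := by
      rw [← pow_add, ← pow_add]; congr 1; ring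
    have g6 : (X : (ZMod 2)[X]) ^ (3 * (2 * q)) = (X ^ q * X ^ q * X ^ q) * (X ^ q * X ^ q * X ^ q)
        := by
      rw [← pow_add, ← pow_add, ← pow_add]; congr 1; ring
    have g8 : (X : (ZMod 2)[X]) ^ (8 * (2 * q)) = X ^ (8 * q) * X ^ (8 * q) := by
      rw [← pow_add]; congr 1; ring
    rw [g2, g3, g6, g8]
    linear_combination (X ^ q * X ^ q * X ^ q * X ^ q * u (n + 4 * q) +
      X ^ q * X ^ (8 * q) * u (n + 3 * q) +
      X ^ q * X ^ q * X ^ q * X ^ (8 * q) * u (n + q)) * two_eq

end

/-! ### The content lemma -/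

/-- The operator lowers the content of the exponents. -/
def Low (u : ℕ → (ZMod 2)[X]) : Prop := ∀ n, ∀ m ∈ (u n).support, cont m < cont n

theorem mem_support_X_pow_mul {p : (ZMod 2)[X]} {a m : ℕ} (h : m ∈ (X ^ a * p).support) :
    ∃ m' ∈ p.support, m = a + m' := by
  rw [mem_support_iff, coeff_X_pow_mul'] at h
  split_ifs at h with h1
  · exact ⟨m - a, mem_support_iff.2 h, by omega⟩
  · exact absurd rfl h

theorem mem_support_add {p q : (ZMod 2)[X]} {m : ℕ} (h : m ∈ (p + q).support) :
    m ∈ p.support ∨ m ∈ q.support := by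
  by_contra hc
  push Not at hc
  simp only [mem_support_iff, not_not] at hc
  rw [mem_support_iff, coeff_add, hc.1, hc.2] at h
  simp at h

/-- The exponents of `u n` are smaller than `n` and have the same parity. -/
theorem deg3 {u : ℕ → (ZMod 2)[X]} (h : ∀ n, u (n + 4) = X * u (n + 1) + X ^ 4 * u n)
    (h0 : ∀ n < 4, ∀ m ∈ (u n).support, m < n ∧ m % 2 = n % 2) (n : ℕ) :
    ∀ m ∈ (u n).support, m < n ∧ m % 2 = n % 2 := by
  induction n using Nat.strong_induction_on with
  | _ n ih =>
    by_cases hn : n < 4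
    · exact h0 n hn
    obtain ⟨k, rfl⟩ : ∃ k, n = k + 4 := ⟨n - 4, by omega⟩
    intro m hm
    rw [h] at hm
    rcases mem_support_add hm with hm | hm
    · rw [← pow_one X] at hm
      obtain ⟨m', hm', rfl⟩ := mem_support_X_pow_mul hm
      have := ih (k + 1) (by omega) m' hm'
      omega
    · obtain ⟨m', hm', rfl⟩ := mem_support_X_pow_mul hm
      have := ih k (by omega) m' hm'
      omega

theorem deg5 {u : ℕ → (ZMod 2)[X]} (h : ∀ n, u (n + 6) = X * u (n + 1) + X ^ 2 * u (n + 4) +
      X ^ 4 * u (n + 2) + X ^ 6 * u n)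
    (h0 : ∀ n < 6, ∀ m ∈ (u n).support, m < n ∧ m % 2 = n % 2) (n : ℕ) :
    ∀ m ∈ (u n).support, m < n ∧ m % 2 = n % 2 := by
  induction n using Nat.strong_induction_on with
  | _ n ih =>
    by_cases hn : n < 6
    · exact h0 n hn
    obtain ⟨k, rfl⟩ : ∃ k, n = k + 6 := ⟨n - 6, by omega⟩
    intro m hm
    rw [h] at hm
    rcases mem_support_add hm with hm | hm
    · rcases mem_support_add hm with hm | hm
      · rcases mem_support_add hm with hm | hm
        · rw [← pow_one X] at hm
          obtain ⟨m', hm', rfl⟩ := mem_support_X_pow_mul hm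
          have := ih (k + 1) (by omega) m' hm'
          omega
        · obtain ⟨m', hm', rfl⟩ := mem_support_X_pow_mul hm
          have := ih (k + 4) (by omega) m' hm'
          omega
      · obtain ⟨m', hm', rfl⟩ := mem_support_X_pow_mul hm
        have := ih (k + 2) (by omega) m' hm'
        omega
    · obtain ⟨m', hm', rfl⟩ := mem_support_X_pow_mul hm
      have := ih k (by omega) m' hm'
      omega

private theorem top_split {n : ℕ} (hn : 16 ≤ n) : ∃ j k, n = k + 16 ^ (j + 1) ∧
    k < 15 * 16 ^ (j + 1) := by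
  have h1 : 16 ^ Nat.log 16 n ≤ n := Nat.pow_log_le_self 16 (by omega)
  have h2 : n < 16 ^ (Nat.log 16 n + 1) := Nat.lt_pow_succ_log_self (by norm_num) n
  have h3 : 1 ≤ Nat.log 16 n := (Nat.le_log_iff_pow_le (by norm_num) (by omega)).2 (by simpa using hn)
  obtain ⟨j, hj⟩ : ∃ j, Nat.log 16 n = j + 1 := ⟨Nat.log 16 n - 1, by omega⟩
  rw [hj] at h1 h2
  refine ⟨j, n - 16 ^ (j + 1), by omega, ?_⟩
  rw [pow_succ] at h2
  omega

/-- The content lemma for `T_3`. -/
theorem low3 {u : ℕ → (ZMod 2)[X]} (h : ∀ n, u (n + 4) = X * u (n + 1) + X ^ 4 * u n)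
    (h0 : ∀ n < 4, ∀ m ∈ (u n).support, m < n ∧ m % 2 = n % 2) : Low u := by
  intro n
  induction n using Nat.strong_induction_on with
  | _ n ih =>
    intro m hm
    by_cases hn : n < 16
    · have h1 := (deg3 h h0 n m hm).1
      rw [cont_small hn, cont_small (by omega)]
      exact h1
    obtain ⟨j, k, rfl, hk⟩ := top_split (not_lt.1 hn)
    have hN : cont (k + 16 ^ (j + 1)) = 8 ^ (j + 1) + cont k := by
      rw [add_comm, cont_top _ _ hk]
    have hp : 0 < 16 ^ j := by positivity
    have e1 : 16 ^ (j + 1) = 4 * 2 ^ (4 * j + 2) := by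
      rw [show (16 : ℕ) = 2 ^ 4 by norm_num, ← pow_mul, pow_add, mul_add, pow_add]
      norm_num
      ring
    have e2 : 2 ^ (4 * j + 2) = 4 * 16 ^ j := by
      rw [show (16 : ℕ) = 2 ^ 4 by norm_num, ← pow_mul, pow_add]
      norm_num
      ring
    have hr := rec3 h (4 * j + 2) k
    rw [← e1, e2] at hr
    rw [hr] at hm
    have c4 : cont (4 * 16 ^ j) = 4 * 8 ^ j := by rw [cont_mul_pow, cont_small (by norm_num)]
    have c1 : cont (16 ^ (j + 1)) = 8 ^ (j + 1) := by
      have := cont_mul_pow (j + 1) 1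
      rw [one_mul] at this
      rw [this, cont_small (n := 1) (by norm_num), one_mul]
    rw [hN]
    rcases mem_support_add hm with hm | hm
    · obtain ⟨m', hm', rfl⟩ := mem_support_X_pow_mul hm
      have h1 := ih (k + 4 * 16 ^ j) (by rw [pow_succ]; omega) m' hm'
      have h2 := cont_add_le (4 * 16 ^ j) m'
      have h3 := cont_add_le k (4 * 16 ^ j)
      rw [c4] at h2 h3
      rw [pow_succ]
      omega
    · obtain ⟨m', hm', rfl⟩ := mem_support_X_pow_mul hm
      have h1 := ih k (by rw [pow_succ]; omega) m' hm'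
      have h2 := cont_add_le (16 ^ (j + 1)) m'
      rw [c1] at h2
      omega

/-- The content lemma for `T_5`. -/
theorem low5 {u : ℕ → (ZMod 2)[X]} (h : ∀ n, u (n + 6) = X * u (n + 1) + X ^ 2 * u (n + 4) +
      X ^ 4 * u (n + 2) + X ^ 6 * u n)
    (h0 : ∀ n < 6, ∀ m ∈ (u n).support, m < n ∧ m % 2 = n % 2) : Low u := by
  intro n
  induction n using Nat.strong_induction_on with
  | _ n ih =>
    intro m hm
    by_cases hn : n < 16
    · have h1 := (deg5 h h0 n m hm).1
      rw [cont_small hn, cont_small (by omega)]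
      exact h1
    obtain ⟨j, k, rfl, hk⟩ := top_split (not_lt.1 hn)
    have hN : cont (k + 16 ^ (j + 1)) = 8 ^ (j + 1) + cont k := by
      rw [add_comm, cont_top _ _ hk]
    have hp : 0 < 16 ^ j := by positivity
    have e1 : 16 ^ (j + 1) = 8 * 2 ^ (4 * j + 1) := by
      rw [show (16 : ℕ) = 2 ^ 4 by norm_num, ← pow_mul, pow_add, mul_add, pow_add]
      norm_num
      ring
    have e2 : 2 ^ (4 * j + 1) = 2 * 16 ^ j := by
      rw [show (16 : ℕ) = 2 ^ 4 by norm_num, ← pow_mul, pow_add]
      norm_num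
      ring
    have hr := rec5 (rec5_base h) (4 * j + 1) k
    rw [← e1, e2, show 3 * (2 * 16 ^ j) = 6 * 16 ^ j by ring] at hr
    rw [hr] at hm
    have c2 : cont (2 * 16 ^ j) = 2 * 8 ^ j := by rw [cont_mul_pow, cont_small (by norm_num)]
    have c6 : cont (6 * 16 ^ j) = 6 * 8 ^ j := by rw [cont_mul_pow, cont_small (by norm_num)]
    have c1 : cont (16 ^ (j + 1)) = 8 ^ (j + 1) := by
      have := cont_mul_pow (j + 1) 1
      rw [one_mul] at this
      rw [this, cont_small (n := 1) (by norm_num), one_mul]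
    rw [hN]
    rcases mem_support_add hm with hm | hm
    · rcases mem_support_add hm with hm | hm
      · obtain ⟨m', hm', rfl⟩ := mem_support_X_pow_mul hm
        have h1 := ih (k + 6 * 16 ^ j) (by rw [pow_succ]; omega) m' hm'
        have h2 := cont_add_le (2 * 16 ^ j) m'
        have h3 := cont_add_le k (6 * 16 ^ j)
        rw [c2] at h2
        rw [c6] at h3
        rw [pow_succ]
        omega
      · obtain ⟨m', hm', rfl⟩ := mem_support_X_pow_mul hm
        have h1 := ih (k + 2 * 16 ^ j) (by rw [pow_succ]; omega) m' hm'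
        have h2 := cont_add_le (6 * 16 ^ j) m'
        have h3 := cont_add_le k (2 * 16 ^ j)
        rw [c6] at h2
        rw [c2] at h3
        rw [pow_succ]
        omega
    · obtain ⟨m', hm', rfl⟩ := mem_support_X_pow_mul hm
      have h1 := ih k (by rw [pow_succ]; omega) m' hm'
      have h2 := cont_add_le (16 ^ (j + 1)) m'
      rw [c1] at h2
      omega

/-! ### Nilpotence -/

/-- An operator which lowers the content. -/
def Lows (T : Module.End (ZMod 2) (ZMod 2)[X]) : Prop := Low fun n => T (X ^ n)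

theorem Lows.support {T : Module.End (ZMod 2) (ZMod 2)[X]} (hT : Lows T) {f : (ZMod 2)[X]} {m : ℕ}
    (hm : m ∈ (T f).support) : ∃ n ∈ f.support, cont m < cont n := by
  by_contra hc
  push Not at hc
  rw [mem_support_iff] at hm
  apply hm
  rw [← f.sum_monomial_eq, Polynomial.sum, map_sum, finsetSum_coeff]
  refine Finset.sum_eq_zero fun n hn => ?_
  have h1 : monomial n (f.coeff n) = f.coeff n • (X ^ n : (ZMod 2)[X]) := by
    rw [smul_eq_C_mul, C_mul_X_pow_eq_monomial]
  rw [h1, map_smul, coeff_smul]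
  by_contra h2
  have h3 : m ∈ (T (X ^ n)).support := by
    rw [mem_support_iff]
    intro h4
    apply h2
    rw [h4, smul_zero]
  exact absurd (hT n m h3) (not_lt.2 (hc n hn))

/-- A product of more operators than the content is zero. -/
theorem prod_eq_zero (l : List (Module.End (ZMod 2) (ZMod 2)[X])) (hl : ∀ T ∈ l, Lows T)
    (f : (ZMod 2)[X]) (hf : ∀ n ∈ f.support, cont n < l.length) : l.prod f = 0 := by
  have key : ∀ m ∈ (l.prod f).support, ∃ n ∈ f.support, cont m + l.length ≤ cont n := by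
    clear hf
    induction l with
    | nil => intro m hm; exact ⟨m, by simpa using hm, by simp⟩
    | cons T l ih =>
      intro m hm
      rw [List.prod_cons, Module.End.mul_apply] at hm
      obtain ⟨m', hm', h1⟩ := (hl T (by simp)).support hm
      obtain ⟨n, hn, h2⟩ := ih (fun S hS => hl S (by simp [hS])) m' hm'
      exact ⟨n, hn, by simp only [List.length_cons]; omega⟩
  rw [← support_eq_empty, Finset.eq_empty_iff_forall_notMem]
  intro m hm
  obtain ⟨n, hn, h1⟩ := key m hm
  have := hf n hn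
  omega

end Vale.Agent.P022.H30
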