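import Vale.Agent.P022.H30.Cont

/-!
# Power series in two commuting operators which lower the content act faithfully
-/

namespace Vale.Agent.P022.H30

open Polynomial

/-! ### Arrays which satisfy a recursion -/

section

variable {k : Type*} [Field k]

/-- An array with a recursion is determined by its values at the places `i < p₀` or `j < q₀`. -/
theorem array_zero {P : ℕ → ℕ → k} {p₀ q₀ : ℕ} (h0 : P p₀ q₀ ≠ 0)
    (hlow : ∀ p q, p + q < p₀ + q₀ → P p q = 0)
    (hext : ∀ p q, p + q = p₀ + q₀ → p₀ < p → P p q = 0) {N : ℕ} {φ : ℕ → ℕ → k}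
    (hφ : ∀ i j, N ≤ i + j → φ i j = 0)
    (hrel : ∀ i j, ∑ p ∈ Finset.range N, ∑ q ∈ Finset.range N, P p q * φ (i + p) (j + q) = 0)
    (hφ0 : ∀ i j, i < p₀ ∨ j < q₀ → φ i j = 0) (i j : ℕ) : φ i j = 0 := by
  -- induction on `N - (i + j)`, then on `i`
  have key : ∀ m i j, N ≤ i + j + m → φ i j = 0 := by
    intro m
    induction m with
    | zero => intro i j h; exact hφ i j h
    | succ m ihm =>
      intro i
      induction i using Nat.strong_induction_on with
      | _ i ihi =>
        intro j hij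
        by_cases hN : N ≤ i + j
        · exact hφ i j hN
        by_cases hc : i < p₀ ∨ j < q₀
        · exact hφ0 i j hc
        push Not at hc hN
        obtain ⟨i', rfl⟩ : ∃ i', i = i' + p₀ := ⟨i - p₀, by omega⟩
        obtain ⟨j', rfl⟩ : ∃ j', j = j' + q₀ := ⟨j - q₀, by omega⟩
        have hr := hrel i' j'
        rw [Finset.sum_eq_single_of_mem p₀ (Finset.mem_range.2 (by omega)),
          Finset.sum_eq_single_of_mem q₀ (Finset.mem_range.2 (by omega))] at hr
        · exact (mul_eq_zero.1 hr).resolve_left h0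
        · intro q _ hq
          rcases lt_or_gt_of_ne hq with h | h
          · rw [hlow p₀ q (by omega), zero_mul]
          · rw [ihm (i' + p₀) (j' + q) (by omega), mul_zero]
        · intro p _ hp
          refine Finset.sum_eq_zero fun q _ => ?_
          rcases lt_trichotomy (p + q) (p₀ + q₀) with h | h | h
          · rw [hlow p q h, zero_mul]
          · rcases lt_or_gt_of_ne hp with h' | h'
            · rw [ihi (i' + p) (by omega) (j' + q) (by omega), mul_zero]
            · rw [hext p q h h', zero_mul]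
          · rw [ihm (i' + p) (j' + q) (by omega), mul_zero]
  exact key N i j (by omega)

/-- The extreme monomial of the leading form. -/
theorem exists_extreme {P : ℕ → ℕ → k} (hP : ∃ p q, P p q ≠ 0) :
    ∃ p₀ q₀, P p₀ q₀ ≠ 0 ∧ (∀ p q, p + q < p₀ + q₀ → P p q = 0) ∧
      ∀ p q, p + q = p₀ + q₀ → p₀ < p → P p q = 0 := by
  classical
  have h1 : ∃ d, ∃ p q, p + q = d ∧ P p q ≠ 0 := by
    obtain ⟨p, q, h⟩ := hP
    exact ⟨p + q, p, q, rfl, h⟩
  set d := Nat.find h1 with hd
  obtain ⟨p1, q1, hpq, hne⟩ := Nat.find_spec h1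
  have hmin : ∀ p q, p + q < d → P p q = 0 := by
    intro p q h
    by_contra hc
    exact Nat.find_min h1 h ⟨p, q, rfl, hc⟩
  set S := (Finset.range (d + 1)).filter fun p => P p (d - p) ≠ 0 with hS
  have hSne : S.Nonempty := by
    refine ⟨p1, ?_⟩
    rw [hS, Finset.mem_filter, Finset.mem_range]
    refine ⟨by omega, ?_⟩
    have : d - p1 = q1 := by omega
    rw [this]
    exact hne
  set p₀ := S.max' hSne with hp0
  have hmem : p₀ ∈ S := S.max'_mem hSne
  rw [hS, Finset.mem_filter, Finset.mem_range] at hmem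
  refine ⟨p₀, d - p₀, hmem.2, fun p q h => hmin p q (by omega), fun p q h h' => ?_⟩
  by_contra hc
  have h2 : p ∈ S := by
    rw [hS, Finset.mem_filter, Finset.mem_range]
    refine ⟨by omega, ?_⟩
    have : d - p = q := by omega
    rw [this]
    exact hc
  have := S.le_max' p h2
  omega

/-- The dimension bound: a space of arrays with a recursion has dimension at most `d N`. -/
theorem finrank_le {M : Type*} [AddCommGroup M] [Module k M] [FiniteDimensional k M] {P : ℕ → ℕ → k}
    {p₀ q₀ : ℕ} (h0 : P p₀ q₀ ≠ 0) (hlow : ∀ p q, p + q < p₀ + q₀ → P p q = 0)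
    (hext : ∀ p q, p + q = p₀ + q₀ → p₀ < p → P p q = 0) {N : ℕ} (φ : M →ₗ[k] (ℕ → ℕ → k))
    (hinj : Function.Injective φ) (hφ : ∀ f i j, N ≤ i + j → φ f i j = 0)
    (hrel : ∀ f i j, ∑ p ∈ Finset.range N, ∑ q ∈ Finset.range N,
      P p q * φ f (i + p) (j + q) = 0) :
    Module.finrank k M ≤ (p₀ + q₀) * N := by
  classical
  set S : Finset (ℕ × ℕ) := (Finset.range p₀ ×ˢ Finset.range N) ∪
    (Finset.range N ×ˢ Finset.range q₀) with hS
  let ψ : M →ₗ[k] (S → k) :=
    { toFun := fun f s => φ f s.1.1 s.1.2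
      map_add' := by intro f g; ext s; simp
      map_smul' := by intro c f; ext s; simp }
  have hψ : Function.Injective ψ := by
    rw [← LinearMap.ker_eq_bot, LinearMap.ker_eq_bot']
    intro f hf
    apply hinj
    rw [map_zero]
    ext i j
    refine array_zero h0 hlow hext (hφ f) (hrel f) ?_ i j
    intro i j hij
    by_cases hN : N ≤ i + j
    · exact hφ f i j hN
    have hm : (i, j) ∈ S := by
      rw [hS, Finset.mem_union, Finset.mem_product, Finset.mem_product, Finset.mem_range,
        Finset.mem_range, Finset.mem_range, Finset.mem_range]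
      rcases hij with h | h
      · exact Or.inl ⟨h, by simp only; omega⟩
      · exact Or.inr ⟨by simp only; omega, h⟩
    have := congrFun hf ⟨(i, j), hm⟩
    simpa [ψ] using this
  calc Module.finrank k M ≤ Module.finrank k (S → k) := LinearMap.finrank_le_finrank_of_injective hψ
    _ = S.card := by rw [Module.finrank_fintype_fun_eq_card, Fintype.card_coe]
    _ ≤ p₀ * N + N * q₀ := by
        refine (Finset.card_union_le _ _).trans ?_
        rw [Finset.card_product, Finset.card_product, Finset.card_range, Finset.card_range,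
          Finset.card_range]
    _ = (p₀ + q₀) * N := by ring

end

/-! ### The odd part -/

/-- Polynomials with odd exponents. -/
def IsOddP (f : (ZMod 2)[X]) : Prop := ∀ m ∈ f.support, m % 2 = 1

/-- The polynomials with odd exponents smaller than `2 K`. -/
noncomputable def oddMap (K : ℕ) : (Fin K → ZMod 2) →ₗ[ZMod 2] (ZMod 2)[X] where
  toFun c := ∑ i : Fin K, c i • (X ^ (2 * (i : ℕ) + 1) : (ZMod 2)[X])
  map_add' c d := by simp [add_smul, Finset.sum_add_distrib]
  map_smul' a c := by simp [Finset.smul_sum, smul_smul]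

theorem oddMap_coeff (K : ℕ) (c : Fin K → ZMod 2) (m : ℕ) :
    (oddMap K c).coeff m = ∑ i : Fin K, if m = 2 * (i : ℕ) + 1 then c i else 0 := by
  change (∑ i : Fin K, c i • (X ^ (2 * (i : ℕ) + 1) : (ZMod 2)[X])).coeff m = _
  rw [finsetSum_coeff]
  refine Finset.sum_congr rfl fun i _ => ?_
  rw [coeff_smul, coeff_X_pow, smul_eq_mul]
  split_ifs <;> simp

theorem oddMap_inj (K : ℕ) : Function.Injective (oddMap K) := by
  rw [← LinearMap.ker_eq_bot, LinearMap.ker_eq_bot']
  intro c hc
  ext i
  have h1 := oddMap_coeff K c (2 * (i : ℕ) + 1)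
  rw [hc, coeff_zero, Finset.sum_eq_single i] at h1
  · simpa using h1.symm
  · intro j _ hj
    rw [if_neg]
    intro h
    apply hj
    apply Fin.ext
    omega
  · intro h
    exact absurd (Finset.mem_univ i) h

theorem oddMap_support (K : ℕ) (c : Fin K → ZMod 2) :
    ∀ m ∈ (oddMap K c).support, m % 2 = 1 ∧ m < 2 * K := by
  intro m hm
  rw [mem_support_iff, oddMap_coeff] at hm
  obtain ⟨i, _, hi⟩ := Finset.exists_ne_zero_of_sum_ne_zero hm
  have h1 : m = 2 * (i : ℕ) + 1 := by
    by_contra hc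
    rw [if_neg hc] at hi
    exact hi rfl
  have := i.2
  omega

theorem oddMap_isOdd (K : ℕ) (c : Fin K → ZMod 2) : IsOddP (oddMap K c) := fun m hm =>
  (oddMap_support K c m hm).1

/-- A product of powers of operators which lower the content kills small polynomials. -/
theorem pow_mul_pow_eq_zero {S T : Module.End (ZMod 2) (ZMod 2)[X]} (hS : Lows S) (hT : Lows T)
    (i j : ℕ) (f : (ZMod 2)[X]) (hf : ∀ n ∈ f.support, cont n < i + j) :
    (S ^ i * T ^ j) f = 0 := by
  have h := prod_eq_zero (List.replicate i S ++ List.replicate j T) (by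
    intro U hU
    rw [List.mem_append, List.mem_replicate, List.mem_replicate] at hU
    rcases hU with h | h
    · rw [h.2]; exact hS
    · rw [h.2]; exact hT) f (by simpa using hf)
  rwa [List.prod_append, List.prod_replicate, List.prod_replicate] at h

/-- There is room: `d (18 (2 K)^(3/4) + 1) < K` for large `K`. -/
theorem room (d : ℕ) : ∃ K N : ℕ, (∀ n < 2 * K, cont n < N) ∧ d * N < K := by
  -- take `K = t ^ 4`, `N = 18 * 2 * t ^ 3 + 1`
  refine ⟨(40 * d + 40) ^ 4, 36 * (40 * d + 40) ^ 3 + 1, ?_, ?_⟩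
  · intro n hn
    have h1 := cont_pow_le n
    have h2 : n ^ 3 ≤ (2 * (40 * d + 40) ^ 4) ^ 3 := Nat.pow_le_pow_left hn.le 3
    have h3 : cont n ^ 4 ≤ (36 * (40 * d + 40) ^ 3) ^ 4 := by
      calc cont n ^ 4 ≤ 18 ^ 4 * n ^ 3 := h1
        _ ≤ 18 ^ 4 * (2 * (40 * d + 40) ^ 4) ^ 3 := Nat.mul_le_mul_left _ h2
        _ = (18 ^ 4 * 8) * ((40 * d + 40) ^ 3) ^ 4 := by ring
        _ ≤ (36 ^ 4) * ((40 * d + 40) ^ 3) ^ 4 := Nat.mul_le_mul_right _ (by norm_num)
        _ = _ := by ring
    have h4 : cont n ≤ 36 * (40 * d + 40) ^ 3 := le_of_pow_le_pow_left₀ (by norm_num) (by positivity) h3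
    omega
  · set t := 40 * d + 40 with ht
    have h1 : 1 ≤ t ^ 3 := Nat.one_le_pow _ _ (by omega)
    calc d * (36 * t ^ 3 + 1) ≤ d * (37 * t ^ 3) := Nat.mul_le_mul_left _ (by omega)
      _ = (37 * d) * t ^ 3 := by ring
      _ < t * t ^ 3 := Nat.mul_lt_mul_of_pos_right (by omega) (by omega)
      _ = t ^ 4 := by ring

/-- **Faithfulness.**  Power series in two commuting operators which lower the content act
faithfully on the polynomials with odd exponents, if a functional cogenerates. -/
theorem faithful {S T : Module.End (ZMod 2) (ZMod 2)[X]} (hST : Commute S T) (hS : Lows S)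
    (hT : Lows T) (a : (ZMod 2)[X] →ₗ[ZMod 2] ZMod 2)
    (ha : ∀ f, IsOddP f → (∀ i j, a ((S ^ i * T ^ j) f) = 0) → f = 0) (P : ℕ → ℕ → ZMod 2)
    (hP : ∀ f, IsOddP f → ∀ N, (∀ n ∈ f.support, cont n < N) →
      ∑ p ∈ Finset.range N, ∑ q ∈ Finset.range N, P p q • (S ^ p * T ^ q) f = 0)
    (p q : ℕ) : P p q = 0 := by
  by_contra hne
  obtain ⟨p₀, q₀, h0, hlow, hext⟩ := exists_extreme ⟨p, q, hne⟩
  obtain ⟨K, N, hN, hK⟩ := room (p₀ + q₀)
  let φ : (Fin K → ZMod 2) →ₗ[ZMod 2] (ℕ → ℕ → ZMod 2) :=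
    { toFun := fun c i j => a ((S ^ i * T ^ j) (oddMap K c))
      map_add' := by intro c d; ext i j; simp
      map_smul' := by intro b c; ext i j; simp }
  have hφ : ∀ c i j, φ c i j = a ((S ^ i * T ^ j) (oddMap K c)) := fun _ _ _ => rfl
  have hsup : ∀ c, ∀ n ∈ (oddMap K c).support, cont n < N := fun c n hn =>
    hN n (oddMap_support K c n hn).2
  have hinj : Function.Injective φ := by
    rw [← LinearMap.ker_eq_bot, LinearMap.ker_eq_bot']
    intro c hc
    apply oddMap_inj K
    rw [map_zero]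
    refine ha _ (oddMap_isOdd K c) fun i j => ?_
    rw [← hφ, hc]
    rfl
  have hzero : ∀ c i j, N ≤ i + j → φ c i j = 0 := by
    intro c i j hij
    rw [hφ, pow_mul_pow_eq_zero hS hT i j _ fun n hn => (hsup c n hn).trans_le hij, map_zero]
  have hrel : ∀ c i j, ∑ p ∈ Finset.range N, ∑ q ∈ Finset.range N,
      P p q * φ c (i + p) (j + q) = 0 := by
    intro c i j
    have h1 := hP _ (oddMap_isOdd K c) N (hsup c)
    have h2 : a ((S ^ i * T ^ j) (∑ p ∈ Finset.range N, ∑ q ∈ Finset.range N,
        P p q • (S ^ p * T ^ q) (oddMap K c))) = 0 := by rw [h1, map_zero, map_zero]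
    rw [map_sum, map_sum] at h2
    rw [← h2]
    refine Finset.sum_congr rfl fun p _ => ?_
    rw [map_sum, map_sum]
    refine Finset.sum_congr rfl fun q _ => ?_
    rw [map_smul, map_smul, hφ, smul_eq_mul]
    congr 2
    rw [← Module.End.mul_apply]
    congr 1
    have h3 : Commute (T ^ j) (S ^ p) := (hST.symm.pow_pow j p)
    calc S ^ (i + p) * T ^ (j + q) = S ^ i * (S ^ p * T ^ j) * T ^ q := by
          rw [pow_add, pow_add]; simp only [mul_assoc]
      _ = S ^ i * (T ^ j * S ^ p) * T ^ q := by rw [h3.eq]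
      _ = S ^ i * T ^ j * (S ^ p * T ^ q) := by simp only [mul_assoc]
  have h := finrank_le (k := ZMod 2) h0 hlow hext φ hinj hzero hrel
  rw [Module.finrank_fintype_fun_eq_card, Fintype.card_fin] at h
  omega

end Vale.Agent.P022.H30
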