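import Vale.Agent.P022.H30.Faith

/-!
# The Hecke operators on the polynomials in `Δ` modulo two
-/

namespace Vale.Agent.P022.H30

open Polynomial

/-! ### The operators on power series -/

/-- The series `∑ q ^ (odd²)` modulo two. -/
noncomputable def D : PowerSeries (ZMod 2) := by
  classical
  exact PowerSeries.mk fun n => if ∃ a, Odd a ∧ n = a ^ 2 then 1 else 0

/-- `f(q) ↦ f(q^l)`. -/
noncomputable def dil (l : ℕ) (f : PowerSeries (ZMod 2)) : PowerSeries (ZMod 2) :=
  PowerSeries.mk fun n => if l ∣ n then PowerSeries.coeff (n / l) f else 0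

/-- The operator `U_l`. -/
noncomputable def Uop (l : ℕ) (f : PowerSeries (ZMod 2)) : PowerSeries (ZMod 2) :=
  PowerSeries.mk fun n => PowerSeries.coeff (l * n) f

/-- The Hecke operator modulo two. -/
noncomputable def hec (l : ℕ) (f : PowerSeries (ZMod 2)) : PowerSeries (ZMod 2) :=
  Uop l f + dil l f

theorem coeff_hec (l n : ℕ) (f : PowerSeries (ZMod 2)) :
    PowerSeries.coeff n (hec l f) = PowerSeries.coeff (l * n) f +
      if l ∣ n then PowerSeries.coeff (n / l) f else 0 := by
  unfold hec Uop dil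
  rw [map_add, PowerSeries.coeff_mk, PowerSeries.coeff_mk]

/-- The Hecke operator as a linear map. -/
noncomputable def hecL (l : ℕ) : Module.End (ZMod 2) (PowerSeries (ZMod 2)) where
  toFun := hec l
  map_add' f g := by
    ext n
    rw [map_add, coeff_hec, coeff_hec, coeff_hec, map_add, map_add]
    split_ifs <;> ring
  map_smul' c f := by
    ext n
    rw [PowerSeries.coeff_smul, coeff_hec, coeff_hec, PowerSeries.coeff_smul,
      PowerSeries.coeff_smul]
    simp only [RingHom.id_apply]
    split_ifs <;> ring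

theorem hecL_apply (l : ℕ) (f : PowerSeries (ZMod 2)) : hecL l f = hec l f := rfl

theorem hec_comm {l m : ℕ} (hl : 0 < l) (hm : 0 < m) (h : Nat.Coprime l m)
    (f : PowerSeries (ZMod 2)) : hec l (hec m f) = hec m (hec l f) := by
  ext n
  rw [coeff_hec, coeff_hec, coeff_hec, coeff_hec, coeff_hec, coeff_hec]
  have e1 : l * (m * n) = m * (l * n) := by ring
  have d1 : m ∣ l * n ↔ m ∣ n := h.symm.dvd_mul_left
  have d2 : l ∣ m * n ↔ l ∣ n := h.dvd_mul_left
  by_cases h1 : l ∣ n
  · by_cases h2 : m ∣ n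
    · obtain ⟨k, rfl⟩ : l * m ∣ n := h.mul_dvd_of_dvd_of_dvd h1 h2
      have q1 : l * m * k / l = m * k := by rw [mul_assoc, Nat.mul_div_cancel_left _ hl]
      have q2 : l * m * k / m = l * k := by
        rw [mul_comm l m, mul_assoc, Nat.mul_div_cancel_left _ hm]
      have q3 : l * (l * m * k) / m = l * (l * k) := by
        rw [show l * (l * m * k) = m * (l * (l * k)) by ring, Nat.mul_div_cancel_left _ hm]
      have q4 : m * (l * m * k) / l = m * (m * k) := by
        rw [show m * (l * m * k) = l * (m * (m * k)) by ring, Nat.mul_div_cancel_left _ hl]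
      rw [if_pos (d1.2 h2), if_pos h1, if_pos (d2.2 h1), if_pos h2, q1, q2, q3, q4,
        if_pos (Dvd.intro _ rfl), if_pos (Dvd.intro _ rfl), Nat.mul_div_cancel_left _ hm,
        Nat.mul_div_cancel_left _ hl, show m * (l * (l * m * k)) = l * (m * (l * m * k)) by ring,
        show l * (l * k) = l * (l * k) from rfl]
      ring
    · have h3 : ¬ m ∣ n / l := fun hc => h2 (hc.trans (Nat.div_dvd_of_dvd h1))
      rw [if_neg (fun hc => h2 (d1.1 hc)), if_pos h1, if_pos (d2.2 h1), if_neg h2, if_neg h3]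
      obtain ⟨k, rfl⟩ := h1
      rw [Nat.mul_div_cancel_left _ hl, show m * (l * k) / l = m * k by
        rw [show m * (l * k) = l * (m * k) by ring, Nat.mul_div_cancel_left _ hl],
        show m * (l * (l * k)) = l * (m * (l * k)) by ring]
      ring
  · by_cases h2 : m ∣ n
    · have h3 : ¬ l ∣ n / m := fun hc => h1 (hc.trans (Nat.div_dvd_of_dvd h2))
      rw [if_pos (d1.2 h2), if_neg h1, if_neg (fun hc => h1 (d2.1 hc)), if_pos h2, if_neg h3]
      obtain ⟨k, rfl⟩ := h2
      rw [Nat.mul_div_cancel_left _ hm, show l * (m * k) / m = l * k by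
        rw [show l * (m * k) = m * (l * k) by ring, Nat.mul_div_cancel_left _ hm],
        show m * (l * (m * k)) = l * (m * (m * k)) by ring]
      ring
    · rw [if_neg (fun hc => h2 (d1.1 hc)), if_neg h1, if_neg (fun hc => h1 (d2.1 hc)), if_neg h2,
        show m * (l * n) = l * (m * n) by ring]

/-! ### Polynomials in `D` -/

theorem coeff_D (n : ℕ) : PowerSeries.coeff n D = 0 ∨ n % 8 = 1 := by
  classical
  unfold D
  rw [PowerSeries.coeff_mk]
  split_ifs with h
  · right
    obtain ⟨a, ⟨b, rfl⟩, rfl⟩ := h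
    have h1 : b * (b + 1) % 2 = 0 := by
      rcases Nat.even_or_odd b with ⟨c, rfl⟩ | ⟨c, rfl⟩
      · rw [show (c + c) * (c + c + 1) = 2 * (c * (c + c + 1)) by ring, Nat.mul_mod_right]
      · rw [show (2 * c + 1) * (2 * c + 1 + 1) = 2 * ((2 * c + 1) * (c + 1)) by ring,
          Nat.mul_mod_right]
    have h2 : (2 * b + 1) ^ 2 = 4 * (b * (b + 1)) + 1 := by ring
    omega
  · left
    rfl

theorem coeff_one_D : PowerSeries.coeff 1 D = 1 := by
  classical
  unfold D
  rw [PowerSeries.coeff_mk, if_pos ⟨1, odd_one, by norm_num⟩]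

theorem D_eq : ∃ E : PowerSeries (ZMod 2), D = PowerSeries.X * E ∧
    PowerSeries.constantCoeff E = 1 := by
  have h : (PowerSeries.X : PowerSeries (ZMod 2)) ∣ D := by
    rw [PowerSeries.X_dvd_iff, ← PowerSeries.coeff_zero_eq_constantCoeff_apply]
    exact (coeff_D 0).resolve_right (by norm_num)
  obtain ⟨E, hE⟩ := h
  refine ⟨E, hE, ?_⟩
  have h1 := coeff_one_D
  rw [hE, show (1 : ℕ) = 0 + 1 by norm_num, PowerSeries.coeff_succ_X_mul,
    PowerSeries.coeff_zero_eq_constantCoeff_apply] at h1
  exact h1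

/-- The value of a polynomial at `D`. -/
noncomputable def ev : (ZMod 2)[X] →ₐ[ZMod 2] PowerSeries (ZMod 2) := aeval D

theorem ev_X_pow (n : ℕ) : ev (X ^ n) = D ^ n := by
  unfold ev
  rw [map_pow, aeval_X]

/-- A nonzero polynomial in `D` is not zero. -/
theorem ev_injective : Function.Injective ev := by
  rw [injective_iff_map_eq_zero]
  intro f hf
  by_contra hne
  -- factor out the lowest power of `X`
  set m := f.natTrailingDegree with hm
  have hc : f.coeff m ≠ 0 := by
    rw [hm, ← trailingCoeff, Ne, trailingCoeff_eq_zero]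
    exact hne
  obtain ⟨E, hE, hE1⟩ := D_eq
  have h1 : PowerSeries.coeff m (ev f) = f.coeff m := by
    unfold ev
    rw [aeval_eq_sum_range, map_sum]
    rw [Finset.sum_eq_single_of_mem m]
    · rw [PowerSeries.coeff_smul, hE, mul_pow, PowerSeries.coeff_X_pow_mul',
        if_pos le_rfl, Nat.sub_self, PowerSeries.coeff_zero_eq_constantCoeff_apply, map_pow, hE1,
        one_pow, smul_eq_mul, mul_one]
    · rw [Finset.mem_range]
      have := le_natDegree_of_ne_zero hc
      omega
    · intro n _ hn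
      rcases lt_or_gt_of_ne hn with h | h
      · rw [coeff_eq_zero_of_lt_natTrailingDegree h, zero_smul, map_zero]
      · rw [PowerSeries.coeff_smul, hE, mul_pow, PowerSeries.coeff_X_pow_mul', if_neg (by omega),
          smul_zero]
  rw [hf, map_zero] at h1
  exact hc h1.symm

/-- Exponents of the powers of `D`. -/
theorem coeff_D_pow (k n : ℕ) (h : PowerSeries.coeff n (D ^ k) ≠ 0) : n % 8 = k % 8 := by
  induction k generalizing n with
  | zero =>
    rw [pow_zero, PowerSeries.coeff_one] at h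
    by_cases hn : n = 0
    · rw [hn]
    · rw [if_neg hn] at h
      exact absurd rfl h
  | succ k ih =>
    rw [pow_succ, PowerSeries.coeff_mul] at h
    obtain ⟨p, hp, hp'⟩ := Finset.exists_ne_zero_of_sum_ne_zero h
    have hp := Finset.HasAntidiagonal.mem_antidiagonal.1 hp
    have h1 := ih p.1 (left_ne_zero_of_mul hp')
    have h2 := (coeff_D p.2).resolve_left (right_ne_zero_of_mul hp')
    omega

/-- A polynomial with odd exponents has a value with odd exponents. -/
theorem coeff_ev_even {f : (ZMod 2)[X]} (hf : IsOddP f) {n : ℕ} (hn : n % 2 = 0) :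
    PowerSeries.coeff n (ev f) = 0 := by
  unfold ev
  rw [aeval_eq_sum_range, map_sum]
  refine Finset.sum_eq_zero fun k _ => ?_
  by_cases hk : f.coeff k = 0
  · rw [hk, zero_smul, map_zero]
  · have h1 := hf k (mem_support_iff.2 hk)
    rw [PowerSeries.coeff_smul]
    by_contra hc
    have h2 := coeff_D_pow k n (fun h => hc (by rw [h, smul_zero]))
    omega

/-! ### The operators on polynomials -/

/-- The linear operator with given values on the powers. -/
noncomputable def opOf (u : ℕ → (ZMod 2)[X]) : Module.End (ZMod 2) (ZMod 2)[X] :=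
  (basisMonomials (ZMod 2)).constr (ZMod 2) u

theorem opOf_X_pow (u : ℕ → (ZMod 2)[X]) (n : ℕ) : opOf u (X ^ n) = u n := by
  unfold opOf
  have h := (basisMonomials (ZMod 2)).constr_basis (ZMod 2) u n
  rw [coe_basisMonomials] at h
  rw [← monomial_one_right_eq_X_pow]
  exact h

theorem ev_opOf {u : ℕ → (ZMod 2)[X]} {l : ℕ} (hu : ∀ n, ev (u n) = hec l (D ^ n))
    (f : (ZMod 2)[X]) : ev (opOf u f) = hec l (ev f) := by
  have h : ev.toLinearMap ∘ₗ opOf u = hecL l ∘ₗ ev.toLinearMap := by
    refine (basisMonomials (ZMod 2)).ext fun n => ?_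
    rw [coe_basisMonomials]
    simp only [LinearMap.comp_apply, monomial_one_right_eq_X_pow, AlgHom.toLinearMap_apply]
    rw [opOf_X_pow, hu, hecL_apply, ev_X_pow]
  exact LinearMap.congr_fun h f

theorem opOf_lows {u : ℕ → (ZMod 2)[X]} (hu : Low u) : Lows (opOf u) := by
  intro n m hm
  rw [show (fun n => opOf u (X ^ n)) n = u n from opOf_X_pow u n] at hm
  exact hu n m hm

/-- Operators which respect the parity of the exponents keep odd polynomials. -/
theorem opOf_odd {u : ℕ → (ZMod 2)[X]} (hu : ∀ n, ∀ m ∈ (u n).support, m % 2 = n % 2)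
    {f : (ZMod 2)[X]} (hf : IsOddP f) : IsOddP (opOf u f) := by
  intro m hm
  by_contra hc
  rw [mem_support_iff] at hm
  apply hm
  rw [← f.sum_monomial_eq, Polynomial.sum, map_sum, finsetSum_coeff]
  refine Finset.sum_eq_zero fun n hn => ?_
  have h1 : monomial n (f.coeff n) = f.coeff n • (X ^ n : (ZMod 2)[X]) := by
    rw [smul_eq_C_mul, C_mul_X_pow_eq_monomial]
  rw [h1, map_smul, coeff_smul, opOf_X_pow]
  have h2 := hf n hn
  by_cases h3 : (u n).coeff m = 0
  · rw [h3, smul_zero]
  · have := hu n m (mem_support_iff.2 h3)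
    omega

theorem opOf_comm {u v : ℕ → (ZMod 2)[X]} {l m : ℕ} (hl : 0 < l) (hm : 0 < m)
    (h : Nat.Coprime l m) (hu : ∀ n, ev (u n) = hec l (D ^ n))
    (hv : ∀ n, ev (v n) = hec m (D ^ n)) : Commute (opOf u) (opOf v) := by
  refine LinearMap.ext fun f => ev_injective ?_
  rw [Module.End.mul_apply, Module.End.mul_apply, ev_opOf hu, ev_opOf hv, ev_opOf hv, ev_opOf hu,
    hec_comm hl hm h]

theorem ev_pow_pow {u v : ℕ → (ZMod 2)[X]} {l m : ℕ} (hu : ∀ n, ev (u n) = hec l (D ^ n))
    (hv : ∀ n, ev (v n) = hec m (D ^ n)) (i j : ℕ) (f : (ZMod 2)[X]) :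
    ev ((opOf u ^ i * opOf v ^ j) f) = (hecL l ^ i * hecL m ^ j) (ev f) := by
  rw [Module.End.mul_apply, Module.End.mul_apply]
  have hv' : ∀ (j : ℕ) (f : (ZMod 2)[X]), ev ((opOf v ^ j) f) = (hecL m ^ j) (ev f) := by
    intro j
    induction j with
    | zero => intro f; simp
    | succ j ih =>
      intro f
      rw [pow_succ', pow_succ', Module.End.mul_apply, Module.End.mul_apply, ev_opOf hv, ih,
        hecL_apply]
  have hu' : ∀ (i : ℕ) (f : (ZMod 2)[X]), ev ((opOf u ^ i) f) = (hecL l ^ i) (ev f) := by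
    intro i
    induction i with
    | zero => intro f; simp
    | succ i ih =>
      intro f
      rw [pow_succ', pow_succ', Module.End.mul_apply, Module.End.mul_apply, ev_opOf hu, ih,
        hecL_apply]
  rw [hu', hv']

/-- **Faithfulness on the polynomials in `D` with odd exponents.** -/
theorem faithful_hec {u v : ℕ → (ZMod 2)[X]} (hu : ∀ n, ev (u n) = hec 3 (D ^ n))
    (hv : ∀ n, ev (v n) = hec 5 (D ^ n)) (hlu : Low u) (hlv : Low v)
    (ha : ∀ f, IsOddP f → (∀ i j, PowerSeries.coeff 1 ((hecL 3 ^ i * hecL 5 ^ j) (ev f)) = 0) →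
      f = 0) (P : ℕ → ℕ → ZMod 2)
    (hP : ∀ f, IsOddP f → ∀ N, (∀ n ∈ f.support, cont n < N) →
      ∑ p ∈ Finset.range N, ∑ q ∈ Finset.range N,
        P p q • (hecL 3 ^ p * hecL 5 ^ q) (ev f) = 0) (p q : ℕ) : P p q = 0 := by
  refine faithful (S := opOf u) (T := opOf v)
    (opOf_comm (by norm_num) (by norm_num) (by norm_num) hu hv) (opOf_lows hlu) (opOf_lows hlv)
    ((PowerSeries.coeff 1 : PowerSeries (ZMod 2) →ₗ[ZMod 2] ZMod 2) ∘ₗ ev.toLinearMap) ?_ P ?_ p q
  · intro f hf h
    refine ha f hf fun i j => ?_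
    rw [← ev_pow_pow hu hv]
    exact h i j
  · intro f hf N hN
    apply ev_injective
    rw [map_zero, ← hP f hf N hN, map_sum]
    refine Finset.sum_congr rfl fun p _ => ?_
    rw [map_sum]
    refine Finset.sum_congr rfl fun q _ => ?_
    rw [map_smul, ev_pow_pow hu hv]

end Vale.Agent.P022.H30
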