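import Vale.Agent.P022.H30.Near
import Vale.Agent.P022.H239.L3.Red
import Vale.Agent.P022.H601.FFrob
import Vale.Agent.P022.H601.Rep
import Vale.Agent.P022.H967.NS4
import Vale.Agent.P022.H583.Stab

/-!
# The reduction modulo two of words in the Hecke operators of level three
-/

namespace Vale.Agent.P022.H30

open Polynomial Vale.Agent.P022
open Vale.Agent.P022.H601 (dk dk_map)

/-! ### Dickson polynomials -/

theorem commute_dk {A : Type*} [Ring A] {a c : A} (h : Commute a c) (n : ℕ) :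
    Commute (dk a 1 n) c := by
  induction n using Nat.strong_induction_on with
  | _ n ih =>
    rcases n with _ | _ | n
    · simp only [dk]
      exact Commute.ofNat_left 2 c
    · simpa [dk] using h
    · rw [dk, one_mul]
      exact (h.mul_left (ih (n + 1) (by omega))).sub_left (ih n (by omega))

theorem commute_dk_dk {A : Type*} [Ring A] {a c : A} (h : Commute a c) (m n : ℕ) :
    Commute (dk a 1 m) (dk c 1 n) :=
  (commute_dk (commute_dk h m).symm n).symm

/-! ### Operators near `T_3`, `T_5` -/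

section Near

variable {k : Type*} [Field k] {M : Type*} [AddCommGroup M] [Module k M]
variable {H S T : Module.End k M}

/-- `H` raises the order. -/
theorem raise (h : Commute S T) (hH : ∀ f, H f ∈ V S T 1 f) {d : ℕ} {f v : M}
    (hv : v ∈ V S T d f) : H v ∈ V S T (d + 1) f := V_trans h hv (hH v)

theorem dk_order [CharP k 2] (h : Commute S T) (hH : ∀ f, H f ∈ V S T 1 f) (n : ℕ) :
    (∀ f, dk H 1 (2 * n) f ∈ V S T 2 f) ∧ ∀ f, dk H 1 (2 * n + 1) f - H f ∈ V S T 2 f := by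
  have two : ∀ f : M, (2 : k) • f = 0 := fun f => by
    have : (2 : k) = 0 := by exact_mod_cast CharP.cast_eq_zero k 2
    rw [this, zero_smul]
  induction n with
  | zero =>
    refine ⟨fun f => ?_, fun f => ?_⟩
    · have e : dk H 1 (2 * 0) f = 0 := by
        have : dk H 1 (2 * 0) = (2 : Module.End k M) := rfl
        rw [this, show (2 : Module.End k M) = 1 + 1 from (one_add_one_eq_two).symm,
          LinearMap.add_apply, Module.End.one_apply, ← two_smul k f, two]
      rw [e]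
      exact zero_mem _
    · have e : dk H 1 (2 * 0 + 1) f = H f := rfl
      rw [e, sub_self]
      exact zero_mem _
  | succ n ih =>
    obtain ⟨ih1, ih2⟩ := ih
    have h1 : ∀ f, dk H 1 (2 * n + 1) f ∈ V S T 1 f := fun f => by
      have : dk H 1 (2 * n + 1) f = (dk H 1 (2 * n + 1) f - H f) + H f := by abel
      rw [this]
      exact add_mem (V_le (by omega) f (ih2 f)) (hH f)
    have h2 : ∀ f, dk H 1 (2 * (n + 1)) f ∈ V S T 2 f := fun f => by
      have e : dk H 1 (2 * (n + 1)) f = H (dk H 1 (2 * n + 1) f) - dk H 1 (2 * n) f := by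
        rw [show 2 * (n + 1) = 2 * n + 2 by ring, dk, one_mul, LinearMap.sub_apply,
          Module.End.mul_apply]
      rw [e]
      exact Submodule.sub_mem _ (raise h hH (h1 f)) (ih1 f)
    refine ⟨h2, fun f => ?_⟩
    have e : dk H 1 (2 * (n + 1) + 1) f - H f = H (dk H 1 (2 * (n + 1)) f) -
        (dk H 1 (2 * n + 1) f - H f) := by
      rw [show 2 * (n + 1) + 1 = 2 * n + 1 + 2 by ring, dk, one_mul, LinearMap.sub_apply,
        Module.End.mul_apply, show 2 * n + 1 + 1 = 2 * (n + 1) by ring]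
      have h3 := two (H f)
      rw [two_smul] at h3
      have h4 : -H f = H f := neg_eq_of_add_eq_zero_left h3
      rw [sub_eq_add_neg _ (H f), h4]
      abel
    rw [e]
    exact Submodule.sub_mem _ (V_le (by omega) f (raise h hH (h2 f))) (ih2 f)

theorem dk_near [CharP k 2] (h : Commute S T) {R : Module.End k M} (hR : ∀ f, R f ∈ V S T 1 f)
    (hH : ∀ f, H f - R f ∈ V S T 2 f) {n : ℕ} (hn : Odd n) (f : M) :
    dk H 1 n f - R f ∈ V S T 2 f := by
  obtain ⟨m, rfl⟩ := hn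
  have h1 : ∀ f, H f ∈ V S T 1 f := fun f => by
    have : H f = (H f - R f) + R f := by abel
    rw [this]
    exact add_mem (V_le (by omega) f (hH f)) (hR f)
  have := (dk_order h h1 m).2 f
  have e : dk H 1 (2 * m + 1) f - R f = (dk H 1 (2 * m + 1) f - H f) + (H f - R f) := by abel
  rw [e]
  exact add_mem this (hH f)

theorem sum_two (g : ℕ → M) (N : ℕ) : ∑ i ∈ Finset.range (N + 2), g i =
    ∑ i ∈ Finset.range N, g (i + 2) + g 1 + g 0 := by
  rw [Finset.sum_range_succ', Finset.sum_range_succ']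

/-- The linear part of a power series. -/
theorem sum_linear {c : ℕ → ℕ → k} {f : M} (N : ℕ) (h00 : c 0 0 = 0) :
    ∑ i ∈ Finset.range (N + 2), ∑ j ∈ Finset.range (N + 2), c i j • (S ^ i * T ^ j) f -
      (c 1 0 • S f + c 0 1 • T f) ∈ V S T 2 f := by
  have hV : ∀ i j, 2 ≤ i + j → c i j • (S ^ i * T ^ j) f ∈ V S T 2 f := fun i j hij =>
    Submodule.smul_mem _ _ (mem_V hij f)
  rw [sum_two, sum_two (fun j => c 1 j • (S ^ 1 * T ^ j) f),
    sum_two (fun j => c 0 j • (S ^ 0 * T ^ j) f), h00]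
  have e : ∀ A B C E F G : M, A + (B + E + C) + (G + F + 0) - (C + F) = A + B + E + G := by
    intros; abel
  have e1 : (S ^ 1 * T ^ 0) f = S f := by simp
  have e2 : (S ^ 0 * T ^ 1) f = T f := by simp
  rw [zero_smul, e1, e2, e]
  refine add_mem (add_mem (add_mem ?_ ?_) ?_) ?_
  · exact Submodule.sum_mem _ fun i _ => Submodule.sum_mem _ fun j _ => hV _ _ (by omega)
  · exact Submodule.sum_mem _ fun j _ => hV _ _ (by omega)
  · exact hV _ _ (by omega)
  · exact Submodule.sum_mem _ fun j _ => hV _ _ (by omega)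

end Near

/-! ### The operators on `Modd` -/

section Modd

variable (st : ∀ l : ℕ, l.Prime → l ≠ 2 → ∀ F ∈ Modd, hecL l F ∈ Modd)

/-- `T_l` on the span of the odd powers of `D`. -/
noncomputable def TL (l : ℕ) (hl : l.Prime) (h2 : l ≠ 2) : Module.End (ZMod 2) Modd :=
  (hecL l).restrict (st l hl h2)

theorem TL_coe {l : ℕ} (hl : l.Prime) (h2 : l ≠ 2) (f : Modd) :
    ((TL st l hl h2 f : Modd) : PowerSeries (ZMod 2)) = hecL l (f : PowerSeries (ZMod 2)) := rfl

theorem TL_comm {l m : ℕ} (hl : l.Prime) (h2 : l ≠ 2) (hm : m.Prime) (h2' : m ≠ 2) :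
    Commute (TL st l hl h2) (TL st m hm h2') := by
  by_cases h : l = m
  · subst h
    exact Commute.refl _
  · refine LinearMap.ext fun f => Subtype.ext ?_
    exact hec_comm hl.pos hm.pos ((Nat.coprime_primes hl hm).2 h) _

theorem PA_ne_two (l : PA 3) : l.1 ≠ 2 := fun h => l.2.2 (by rw [h]; exact Dvd.intro 3 rfl)

/-- The generators on `Modd`. -/
noncomputable def opG : Gen 3 → Module.End (ZMod 2) Modd
  | Sum.inl l => TL st l.1 l.2.1 (PA_ne_two l)
  | Sum.inr _ => 1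

theorem opG_coe (X : FreeAlgebra ℤ (Gen 3)) : ∀ f : Modd,
    ((FreeAlgebra.lift ℤ (opG st) X f : Modd) : PowerSeries (ZMod 2)) =
      FreeAlgebra.lift ℤ H239.L3.hbar X (f : PowerSeries (ZMod 2)) := by
  induction X using FreeAlgebra.induction with
  | grade0 m =>
    intro f
    rw [AlgHom.commutes, AlgHom.commutes, Algebra.algebraMap_eq_smul_one,
      Algebra.algebraMap_eq_smul_one, LinearMap.smul_apply, LinearMap.smul_apply,
      Module.End.one_apply, Module.End.one_apply]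
    exact Submodule.coe_smul_of_tower m f
  | grade1 s =>
    intro f
    rw [FreeAlgebra.lift_ι_apply, FreeAlgebra.lift_ι_apply]
    rcases s with l | l
    · rfl
    · rfl
  | mul x y hx hy =>
    intro f
    rw [map_mul, map_mul, Module.End.mul_apply, Module.End.mul_apply, hx, hy]
  | add x y hx hy =>
    intro f
    rw [map_add, map_add, LinearMap.add_apply, LinearMap.add_apply, Submodule.coe_add, hx, hy]

end Modd

/-! ### The concrete operators -/

theorem st (l : ℕ) (hl : l.Prime) (h2 : l ≠ 2) (F : PowerSeries (ZMod 2)) (hF : F ∈ Modd) :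
    hecL l F ∈ Modd := H583.Stab.stab l hl h2 F hF

/-- `T_3`. -/
noncomputable def S3 : Module.End (ZMod 2) Modd := TL st 3 (by norm_num) (by norm_num)

/-- `T_5`. -/
noncomputable def S5 : Module.End (ZMod 2) Modd := TL st 5 (by norm_num) (by norm_num)

theorem S3_coe (f : Modd) :
    ((S3 f : Modd) : PowerSeries (ZMod 2)) = hecL 3 (f : PowerSeries (ZMod 2)) := rfl

theorem S5_coe (f : Modd) :
    ((S5 f : Modd) : PowerSeries (ZMod 2)) = hecL 5 (f : PowerSeries (ZMod 2)) := rfl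

theorem comm35 : Commute S3 S5 := TL_comm st _ _ _ _

/-- The odd powers of `D`. -/
noncomputable def pw (n : ℕ) (h : n % 2 = 1) : Modd := ⟨D ^ n, Submodule.subset_span ⟨n, h, rfl⟩⟩

theorem S3_pw1 : S3 (pw 1 rfl) = 0 := by
  apply Subtype.ext
  change hec 3 (D ^ 1) = 0
  rw [← H967.NS.hu3, H790.A.u3, map_zero]

theorem S5_pw1 : S5 (pw 1 rfl) = 0 := by
  apply Subtype.ext
  change hec 5 (D ^ 1) = 0
  rw [← H967.NS.hu5, H790.A.u5, map_zero]

theorem S3_pw3 : S3 (pw 3 rfl) = pw 1 rfl := by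
  apply Subtype.ext
  change hec 3 (D ^ 3) = D ^ 1
  rw [← H967.NS.hu3, H790.A.u3, ← ev_X_pow, pow_one]

theorem S5_pw3 : S5 (pw 3 rfl) = 0 := by
  apply Subtype.ext
  change hec 5 (D ^ 3) = 0
  rw [← H967.NS.hu5, H790.A.u5, map_zero]

theorem S3_pw5 : S3 (pw 5 rfl) = 0 := by
  apply Subtype.ext
  change hec 3 (D ^ 5) = 0
  have e : H790.A.u3 5 = 0 := by
    rw [show 5 = 1 + 4 by norm_num, H790.A.u3_rec]
    simp [H790.A.u3]
  rw [← H967.NS.hu3, e, map_zero]

theorem S5_pw5 : S5 (pw 5 rfl) = pw 1 rfl := by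
  apply Subtype.ext
  change hec 5 (D ^ 5) = D ^ 1
  rw [← H967.NS.hu5, H790.A.u5, ← ev_X_pow, pow_one]

theorem pow_zero_of {U : Module.End (ZMod 2) Modd} {f : Modd} (h : U f = 0) {n : ℕ}
    (hn : 1 ≤ n) : (U ^ n) f = 0 := by
  obtain ⟨m, rfl⟩ : ∃ m, n = m + 1 := ⟨n - 1, by omega⟩
  rw [pow_succ, Module.End.mul_apply, h, map_zero]

theorem nil1 : Nil S3 S5 (pw 1 rfl) 1 := by
  intro i j hij
  rw [Module.End.mul_apply]
  by_cases hj : 1 ≤ j
  · rw [pow_zero_of S5_pw1 hj, map_zero]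
  · obtain rfl : j = 0 := by omega
    rw [pow_zero, Module.End.one_apply, pow_zero_of S3_pw1 (by omega)]

theorem nil3 : Nil S3 S5 (pw 3 rfl) 2 := by
  intro i j hij
  rw [Module.End.mul_apply]
  by_cases hj : 1 ≤ j
  · rw [pow_zero_of S5_pw3 hj, map_zero]
  · obtain rfl : j = 0 := by omega
    obtain ⟨m, rfl⟩ : ∃ m, i = m + 1 + 1 := ⟨i - 2, by omega⟩
    rw [pow_zero, Module.End.one_apply, pow_succ, Module.End.mul_apply, S3_pw3,
      pow_zero_of S3_pw1 (by omega)]

theorem nil5 : Nil S3 S5 (pw 5 rfl) 2 := by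
  intro i j hij
  rw [Module.End.mul_apply]
  rcases j with _ | _ | j
  · rw [pow_zero, Module.End.one_apply, pow_zero_of S3_pw5 (by omega)]
  · rw [zero_add, pow_one, S5_pw5, pow_zero_of S3_pw1 (by omega)]
  · rw [pow_succ, Module.End.mul_apply, S5_pw5, pow_zero_of S5_pw1 (by omega), map_zero]

theorem a1_TL {l : ℕ} (hl : l.Prime) (h2 : l ≠ 2) (f : Modd) :
    a1 (TL st l hl h2 f) = PowerSeries.coeff l (f : PowerSeries (ZMod 2)) := by
  change PowerSeries.coeff 1 (hec l (f : PowerSeries (ZMod 2))) = _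
  rw [coeff_hec, mul_one, if_neg, add_zero]
  intro h
  exact hl.one_lt.ne' (Nat.dvd_one.1 h)

theorem a1_pw (n : ℕ) (h : n % 2 = 1) : a1 (pw n h) = PowerSeries.coeff 1 (D ^ n) := rfl

theorem a1_pw1 : a1 (pw 1 rfl) = 1 := by
  rw [a1_pw, pow_one]
  exact coeff_one_D

theorem a1_pw3 : a1 (pw 3 rfl) = 0 := by
  rw [a1_pw]
  by_contra h
  have := coeff_D_pow 3 1 h
  norm_num at this

theorem a1_pw5 : a1 (pw 5 rfl) = 0 := by
  rw [a1_pw]
  by_contra h
  have := coeff_D_pow 5 1 h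
  norm_num at this

/-- The power series of `T_l`. -/
theorem lin {l : ℕ} (hl : l.Prime) (h2 : l ≠ 2) : ∃ c : ℕ → ℕ → ZMod 2,
    c 0 0 = PowerSeries.coeff l D ∧ c 1 0 = PowerSeries.coeff l (D ^ 3) +
      c 0 0 * 0 ∧ c 0 1 = PowerSeries.coeff l (D ^ 5) + c 0 0 * 0 ∧
    ∀ f N, Nil S3 S5 f N → TL st l hl h2 f =
      ∑ i ∈ Finset.range N, ∑ j ∈ Finset.range N, c i j • (S3 ^ i * S5 ^ j) f := by
  obtain ⟨c, hc⟩ := H967.NS.nsB S3_coe S5_coe (U := TL st l hl h2) (TL_comm st _ _ _ _)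
    (TL_comm st _ _ _ _)
  refine ⟨c, ?_, ?_, ?_, hc⟩
  · have h := congrArg a1 (hc _ 1 nil1)
    rw [a1_TL] at h
    simp only [Finset.sum_range_one, pow_zero, one_mul, Module.End.one_apply, map_smul,
      smul_eq_mul, a1_pw1, mul_one] at h
    rw [← h]
    change PowerSeries.coeff l (D ^ 1) = PowerSeries.coeff l D
    rw [pow_one]
  · have h := congrArg a1 (hc _ 2 nil3)
    rw [a1_TL] at h
    simp only [Finset.sum_range_succ, Finset.sum_range_zero, zero_add, pow_zero, pow_one, one_mul,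
      mul_one, Module.End.one_apply, Module.End.mul_apply, map_add, map_smul, smul_eq_mul, S3_pw3,
      S5_pw3, map_zero, mul_zero, a1_pw3, a1_pw1, add_zero] at h
    rw [mul_zero, add_zero, ← h]
    rfl
  · have h := congrArg a1 (hc _ 2 nil5)
    rw [a1_TL] at h
    simp only [Finset.sum_range_succ, Finset.sum_range_zero, zero_add, pow_zero, pow_one, one_mul,
      mul_one, Module.End.one_apply, Module.End.mul_apply, map_add, map_smul, smul_eq_mul, S3_pw5,
      S5_pw5, S3_pw1, map_zero, mul_zero, a1_pw5, a1_pw1, add_zero] at h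
    rw [mul_zero, add_zero, ← h]
    rfl

theorem exists_nil (f : Modd) : ∃ N, Nil S3 S5 f N := by
  obtain ⟨p, hp, e⟩ := exists_ev f.2
  have e' : f = ⟨ev p, ev_mem_Modd hp⟩ := Subtype.ext e.symm
  refine ⟨(p.support.sup cont) + 1, ?_⟩
  rw [e']
  exact nilST H967.NS.hu3 H967.NS.hu5 H790.A.low_u3 H790.A.low_u5 S3_coe S5_coe p hp _
    fun n hn => Nat.lt_succ_of_le (Finset.le_sup (f := cont) hn)

theorem coeff_D_zero {l : ℕ} (h : l % 8 ≠ 1) : PowerSeries.coeff l D = 0 :=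
  (coeff_D l).resolve_right h

theorem near_three {l : ℕ} (hl : l.Prime) (h2 : l ≠ 2) (h8 : l % 8 = 3) (f : Modd) :
    TL st l hl h2 f - S3 f ∈ V S3 S5 2 f := by
  obtain ⟨c, c00, c10, c01, hc⟩ := lin hl h2
  obtain ⟨N, hN⟩ := exists_nil f
  rw [coeff_D_zero (by omega)] at c00
  rw [c00, ((H601.rep hl).1 h8).1, mul_zero, add_zero] at c10
  rw [c00, ((H601.rep hl).1 h8).2, mul_zero, add_zero] at c01
  have h := sum_linear (S := S3) (T := S5) (f := f) N c00
  rw [← hc f (N + 2) (fun i j hij => hN i j (by omega)), c10, c01, one_smul, zero_smul,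
    add_zero] at h
  exact h

theorem near_five {l : ℕ} (hl : l.Prime) (h2 : l ≠ 2) (h8 : l % 8 = 5) (f : Modd) :
    TL st l hl h2 f - S5 f ∈ V S3 S5 2 f := by
  obtain ⟨c, c00, c10, c01, hc⟩ := lin hl h2
  obtain ⟨N, hN⟩ := exists_nil f
  rw [coeff_D_zero (by omega)] at c00
  rw [c00, ((H601.rep hl).2 h8).1, mul_zero, add_zero] at c10
  rw [c00, ((H601.rep hl).2 h8).2, mul_zero, add_zero] at c01
  have h := sum_linear (S := S3) (T := S5) (f := f) N c00
  rw [← hc f (N + 2) (fun i j hij => hN i j (by omega)), c10, c01, one_smul, zero_smul,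
    zero_add] at h
  exact h

/-- The word of a trace. -/
noncomputable def wd (l : PA 3) (m : ℕ) : FreeAlgebra ℤ (Gen 3) :=
  dk (FreeAlgebra.ι ℤ (Sum.inl l)) (FreeAlgebra.ι ℤ (Sum.inr l)) m

theorem lift_wd (l : PA 3) (m : ℕ) : FreeAlgebra.lift ℤ (opG st) (wd l m) =
    dk (TL st l.1 l.2.1 (PA_ne_two l)) 1 m := by
  rw [wd, dk_map, FreeAlgebra.lift_ι_apply, FreeAlgebra.lift_ι_apply]
  rfl

theorem intCast_mul_eq (n : ℤ) (g : Module.End (ZMod 2) Modd) :
    (n : Module.End (ZMod 2) Modd) * g = (n : ZMod 2) • g := by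
  rw [← zsmul_eq_mul]
  exact (Int.cast_smul_eq_zsmul (ZMod 2) n g).symm

/-- **Words do not vanish modulo two.** -/
theorem words_main (P : ℕ → ℕ → ℤ) (hP : ∃ p q, ¬ (2 : ℤ) ∣ P p q) : ∃ K N : ℕ,
    ∀ (l l' : PA 3) (m m' : ℕ), Odd m → Odd m' → l.1 % 8 = 3 → l'.1 % 8 = 5 → ∀ A, N ≤ A →
    ¬ ∀ n, n % 2 = 1 → n < 2 * K → FreeAlgebra.lift ℤ H239.L3.hbar
      (wd l m * ∑ p ∈ Finset.range A, ∑ q ∈ Finset.range A,
        (P p q : FreeAlgebra ℤ (Gen 3)) * wd l m ^ p * wd l' m' ^ q) (D ^ n) = 0 := by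
  obtain ⟨K, N, h⟩ := near_main' H967.NS.hu3 H967.NS.hu5 H790.A.low_u3 H790.A.low_u5 comm35
    S3_coe S5_coe (H967.NS.nsA S3_coe S5_coe) (fun p q => (P p q : ZMod 2)) (by
      obtain ⟨p, q, hpq⟩ := hP
      refine ⟨p, q, fun h0 => hpq ?_⟩
      exact (ZMod.intCast_zmod_eq_zero_iff_dvd _ 2).1 h0)
  refine ⟨K, N, fun l l' m m' hm hm' h3 h5 A hA hcon => ?_⟩
  have hx : ∀ f, dk (TL st l.1 l.2.1 (PA_ne_two l)) 1 m f - S3 f ∈ V S3 S5 2 f :=
    fun f => dk_near comm35 (fun f => by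
      simpa using mem_V (x := S3) (C := S5) (d := 1) (i := 1) (j := 0) (by omega) f)
      (near_three l.2.1 (PA_ne_two l) h3) hm f
  have hC : ∀ f, dk (TL st l'.1 l'.2.1 (PA_ne_two l')) 1 m' f - S5 f ∈ V S3 S5 2 f :=
    fun f => dk_near comm35 (fun f => by
      simpa using mem_V (x := S3) (C := S5) (d := 1) (i := 0) (j := 1) (by omega) f)
      (near_five l'.2.1 (PA_ne_two l') h5) hm' f
  obtain ⟨c, hc⟩ := h _ _ (commute_dk_dk (TL_comm st _ _ _ _) m m') hx hC A hA
  apply hc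
  have e1 : FreeAlgebra.lift ℤ (opG st) (wd l m * ∑ p ∈ Finset.range A, ∑ q ∈ Finset.range A,
        (P p q : FreeAlgebra ℤ (Gen 3)) * wd l m ^ p * wd l' m' ^ q) =
      dk (TL st l.1 l.2.1 (PA_ne_two l)) 1 m * ∑ p ∈ Finset.range A, ∑ q ∈ Finset.range A,
        (P p q : ZMod 2) • (dk (TL st l.1 l.2.1 (PA_ne_two l)) 1 m ^ p *
          dk (TL st l'.1 l'.2.1 (PA_ne_two l')) 1 m' ^ q) := by
    rw [map_mul, map_sum, lift_wd]
    congr 1
    refine Finset.sum_congr rfl fun p _ => ?_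
    rw [map_sum]
    refine Finset.sum_congr rfl fun q _ => ?_
    rw [map_mul, map_mul, _root_.map_pow, _root_.map_pow, lift_wd, lift_wd, map_intCast, mul_assoc,
      intCast_mul_eq]
  rw [← e1]
  apply Subtype.ext
  rw [opG_coe]
  change FreeAlgebra.lift ℤ H239.L3.hbar _ (ev (oddMap K c)) = 0
  have e2 : ev (oddMap K c) = ∑ i : Fin K, c i • D ^ (2 * (i : ℕ) + 1) := by
    change ev (∑ i : Fin K, c i • (X ^ (2 * (i : ℕ) + 1) : (ZMod 2)[X])) = _
    rw [map_sum]
    refine Finset.sum_congr rfl fun i _ => ?_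
    rw [map_smul, ev_X_pow]
  rw [e2, map_sum]
  refine Finset.sum_eq_zero fun i _ => ?_
  rw [map_smul, hcon _ (by omega) (by have := i.2; omega), smul_zero]

end Vale.Agent.P022.H30
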