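import Vale.Agent.P022.H30.Op

/-!
# Chapter A in the letters `x`, `C`

If all Hecke operators on the span of the odd powers of `D` are given by power series in two
commuting locally nilpotent operators `x`, `C`, with `T_3 = x + (order ≥ 2)`,
`T_5 = C + (order ≥ 2)`, then power series in `x`, `C` act faithfully.
-/

namespace Vale.Agent.P022.H30

open Polynomial

section Abstract

variable {k : Type*} [Field k] {M : Type*} [AddCommGroup M] [Module k M]

/-- The span of the `x ^ i C ^ j f`, `i + j ≥ d`. -/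
def V (x C : Module.End k M) (d : ℕ) (f : M) : Submodule k M :=
  Submodule.span k {w | ∃ i j, d ≤ i + j ∧ w = (x ^ i * C ^ j) f}

/-- `x ^ i C ^ j f = 0` for `i + j ≥ K`. -/
def Nil (x C : Module.End k M) (f : M) (K : ℕ) : Prop := ∀ i j, K ≤ i + j → (x ^ i * C ^ j) f = 0

variable {x C S T : Module.End k M}

theorem mem_V {d i j : ℕ} (h : d ≤ i + j) (f : M) : (x ^ i * C ^ j) f ∈ V x C d f :=
  Submodule.subset_span ⟨i, j, h, rfl⟩

theorem V_le {d e : ℕ} (h : e ≤ d) (f : M) : V x C d f ≤ V x C e f :=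
  Submodule.span_mono fun _ ⟨i, j, hij, hw⟩ => ⟨i, j, h.trans hij, hw⟩

theorem V_zero_mem (f : M) : f ∈ V x C 0 f := by
  have := mem_V (x := x) (C := C) (d := 0) (i := 0) (j := 0) le_rfl f
  simpa using this

theorem V_nil {K : ℕ} {f : M} (h : Nil x C f K) : V x C K f = ⊥ := by
  rw [V, Submodule.span_eq_bot]
  rintro w ⟨i, j, hij, rfl⟩
  exact h i j hij

theorem map_x (d : ℕ) {f v : M} (hv : v ∈ V x C d f) : x v ∈ V x C (d + 1) f := by
  refine Submodule.span_induction (p := fun v _ => x v ∈ V x C (d + 1) f) ?_ ?_ ?_ ?_ hv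
  · rintro w ⟨i, j, hij, rfl⟩
    have h : x ((x ^ i * C ^ j) f) = (x ^ (i + 1) * C ^ j) f := by
      rw [← Module.End.mul_apply, ← mul_assoc, ← pow_succ']
    rw [h]
    exact mem_V (by omega) f
  · rw [map_zero]; exact zero_mem _
  · intro a b _ _ ha hb
    rw [map_add]; exact add_mem ha hb
  · intro c a _ ha
    rw [map_smul]; exact Submodule.smul_mem _ _ ha

theorem map_C (h : Commute x C) (d : ℕ) {f v : M} (hv : v ∈ V x C d f) :
    C v ∈ V x C (d + 1) f := by
  refine Submodule.span_induction (p := fun v _ => C v ∈ V x C (d + 1) f) ?_ ?_ ?_ ?_ hv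
  · rintro w ⟨i, j, hij, rfl⟩
    have h1 : C ((x ^ i * C ^ j) f) = (x ^ i * C ^ (j + 1)) f := by
      rw [← Module.End.mul_apply, ← mul_assoc, ← (h.pow_left i).eq, mul_assoc, ← pow_succ']
    rw [h1]
    exact mem_V (by omega) f
  · rw [map_zero]; exact zero_mem _
  · intro a b _ _ ha hb
    rw [map_add]; exact add_mem ha hb
  · intro c a _ ha
    rw [map_smul]; exact Submodule.smul_mem _ _ ha

theorem map_pow (h : Commute x C) (i j d : ℕ) {f v : M} (hv : v ∈ V x C d f) :
    (x ^ i * C ^ j) v ∈ V x C (d + i + j) f := by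
  have hC : ∀ j, (C ^ j) v ∈ V x C (d + j) f := by
    intro j
    induction j with
    | zero => simpa using hv
    | succ j ih =>
      rw [pow_succ', Module.End.mul_apply]
      exact map_C h _ ih
  have hx : ∀ i, (x ^ i) ((C ^ j) v) ∈ V x C (d + j + i) f := by
    intro i
    induction i with
    | zero => simpa using hC j
    | succ i ih =>
      rw [pow_succ', Module.End.mul_apply]
      exact map_x _ ih
  rw [Module.End.mul_apply, show d + i + j = d + j + i by ring]
  exact hx i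

/-- The span of a member. -/
theorem V_trans (h : Commute x C) {d e : ℕ} {f v w : M} (hv : v ∈ V x C d f)
    (hw : w ∈ V x C e v) : w ∈ V x C (d + e) f := by
  refine Submodule.span_induction (p := fun w _ => w ∈ V x C (d + e) f) ?_ ?_ ?_ ?_ hw
  · rintro w ⟨i, j, hij, rfl⟩
    exact V_le (by omega) f (map_pow h i j d hv)
  · exact zero_mem _
  · intro a b _ _ ha hb
    exact add_mem ha hb
  · intro c a _ ha
    exact Submodule.smul_mem _ _ ha

/-- `S ^ i T ^ j = x ^ i C ^ j` up to higher order. -/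
theorem sub_mem (h : Commute x C) (hS : ∀ f, S f - x f ∈ V x C 2 f)
    (hT : ∀ f, T f - C f ∈ V x C 2 f) (i j : ℕ) (f : M) :
    (S ^ i * T ^ j) f - (x ^ i * C ^ j) f ∈ V x C (i + j + 1) f := by
  -- one step
  have step : ∀ {U u : Module.End k M}, (∀ f, U f - u f ∈ V x C 2 f) →
      (∀ d (v : M), v ∈ V x C d f → u v ∈ V x C (d + 1) f) → ∀ {d : ℕ} {a b : M},
      b ∈ V x C d f → a - b ∈ V x C (d + 1) f → U a - u b ∈ V x C (d + 1 + 1) f := by
    intro U u hU hu d a b hb hab
    have h1 : U a - u b = (U b - u b) + ((U (a - b) - u (a - b)) + u (a - b)) := by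
      rw [map_sub, map_sub]; abel
    rw [h1]
    refine add_mem (V_le (by omega) f (V_trans h hb (hU b))) (add_mem
      (V_le (by omega) f (V_trans h hab (hU _))) (hu _ _ hab))
  have hC : ∀ j, (T ^ j) f - (C ^ j) f ∈ V x C (j + 1) f := by
    intro j
    induction j with
    | zero => simp
    | succ j ih =>
      rw [pow_succ', pow_succ', Module.End.mul_apply, Module.End.mul_apply]
      refine step hT (fun d v hv => map_C h d hv) ?_ ih
      have := mem_V (x := x) (C := C) (d := j) (i := 0) (j := j) (by omega) f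
      simpa using this
  induction i with
  | zero => simpa using hC j
  | succ i ih =>
    have e1 : (S ^ (i + 1) * T ^ j) f = S ((S ^ i * T ^ j) f) := by
      rw [← Module.End.mul_apply, ← mul_assoc, ← pow_succ']
    have e2 : (x ^ (i + 1) * C ^ j) f = x ((x ^ i * C ^ j) f) := by
      rw [← Module.End.mul_apply, ← mul_assoc, ← pow_succ']
    rw [e1, e2, show i + 1 + j + 1 = i + j + 1 + 1 by ring]
    exact step hS (fun d v hv => map_x d hv) (mem_V le_rfl f) ih

theorem V_le_V (h : Commute x C) (hS : ∀ f, S f - x f ∈ V x C 2 f)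
    (hT : ∀ f, T f - C f ∈ V x C 2 f) {f : M} {K : ℕ} (hK : Nil x C f K) (d : ℕ) :
    V x C d f ≤ V S T d f := by
  have key : ∀ m d, K ≤ d + m → V x C d f ≤ V S T d f := by
    intro m
    induction m with
    | zero =>
      intro d hd
      rw [V_nil fun i j hij => hK i j ((by omega : K ≤ d).trans hij)]
      exact bot_le
    | succ m ih =>
      intro d hd
      rw [V, Submodule.span_le]
      rintro w ⟨i, j, hij, rfl⟩
      have h1 := sub_mem h hS hT i j f
      have h2 : (x ^ i * C ^ j) f = (S ^ i * T ^ j) f -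
          ((S ^ i * T ^ j) f - (x ^ i * C ^ j) f) := by abel
      rw [SetLike.mem_coe, h2]
      exact Submodule.sub_mem _ (mem_V hij f) (V_le (by omega) f
        (ih (d + 1) (by omega) (V_le (by omega) f h1)))
  exact key K d (by omega)

end Abstract

/-! ### The span of the odd powers of `D` -/

/-- The span of the odd powers of `D`. -/
noncomputable def Modd : Submodule (ZMod 2) (PowerSeries (ZMod 2)) :=
  Submodule.span (ZMod 2) {F | ∃ n, n % 2 = 1 ∧ F = D ^ n}

theorem ev_mem_Modd {f : (ZMod 2)[X]} (hf : IsOddP f) : ev f ∈ Modd := by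
  unfold ev
  rw [aeval_eq_sum_range]
  refine Submodule.sum_mem _ fun n _ => ?_
  by_cases h : f.coeff n = 0
  · rw [h, zero_smul]
    exact zero_mem _
  · exact Submodule.smul_mem _ _ (Submodule.subset_span ⟨n, hf n (mem_support_iff.2 h), rfl⟩)

theorem exists_ev {F : PowerSeries (ZMod 2)} (hF : F ∈ Modd) :
    ∃ f : (ZMod 2)[X], IsOddP f ∧ ev f = F := by
  refine Submodule.span_induction (p := fun F _ => ∃ f : (ZMod 2)[X], IsOddP f ∧ ev f = F)
    ?_ ?_ ?_ ?_ hF
  · rintro F ⟨n, hn, rfl⟩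
    refine ⟨X ^ n, ?_, ev_X_pow n⟩
    intro m hm
    have := mem_support_iff.1 hm
    rw [coeff_X_pow] at this
    split_ifs at this with h
    · rw [h]; exact hn
    · exact absurd rfl this
  · exact ⟨0, fun m hm => by simp at hm, map_zero _⟩
  · rintro a b _ _ ⟨f, hf, rfl⟩ ⟨g, hg, rfl⟩
    refine ⟨f + g, ?_, map_add _ _ _⟩
    intro m hm
    rcases Finset.mem_union.1 (support_add hm) with h | h
    · exact hf m h
    · exact hg m h
  · rintro c a _ ⟨f, hf, rfl⟩
    refine ⟨c • f, ?_, map_smul _ _ _⟩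
    intro m hm
    exact hf m (support_smul c f hm)

theorem coeff_Modd {F : PowerSeries (ZMod 2)} (hF : F ∈ Modd) {n : ℕ} (hn : n % 2 = 0) :
    PowerSeries.coeff n F = 0 := by
  obtain ⟨f, hf, rfl⟩ := exists_ev hF
  exact coeff_ev_even hf hn

/-- The first coefficient cogenerates. -/
theorem eq_zero_of_stable {W : Submodule (ZMod 2) (PowerSeries (ZMod 2))}
    (hodd : ∀ F ∈ W, ∀ n, n % 2 = 0 → PowerSeries.coeff n F = 0)
    (hst : ∀ l : ℕ, l.Prime → l ≠ 2 → ∀ F ∈ W, hec l F ∈ W)
    (h1 : ∀ F ∈ W, PowerSeries.coeff 1 F = 0) {F : PowerSeries (ZMod 2)} (hF : F ∈ W) :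
    F = 0 := by
  have key : ∀ n, ∀ F ∈ W, PowerSeries.coeff n F = 0 := by
    intro n
    induction n using Nat.strong_induction_on with
    | _ n ih =>
      intro F hF
      by_cases h0 : n % 2 = 0
      · exact hodd F hF n h0
      by_cases h2 : n = 1
      · rw [h2]; exact h1 F hF
      have hp := Nat.minFac_prime h2
      obtain ⟨m, hm⟩ := Nat.minFac_dvd n
      set l := n.minFac with hl
      have hl2 : l ≠ 2 := by
        intro h
        rw [h] at hm
        omega
      have hm0 : 0 < m := by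
        rcases Nat.eq_zero_or_pos m with h | h
        · subst h
          omega
        · exact h
      have hmn : m < n := by
        rw [hm]
        have := hp.two_le
        nlinarith
      have h3 := coeff_hec l m F
      rw [ih m hmn _ (hst l hp hl2 F hF), ← hm] at h3
      have h4 : (if l ∣ m then PowerSeries.coeff (m / l) F else 0) = 0 := by
        split_ifs with h
        · exact ih (m / l) ((Nat.div_le_self m l).trans_lt hmn) F hF
        · rfl
      rw [h4, add_zero] at h3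
      exact h3.symm
  ext n
  rw [key n F hF, map_zero]

/-- The first coefficient. -/
noncomputable def a1 : Modd →ₗ[ZMod 2] ZMod 2 :=
  (PowerSeries.coeff 1 : PowerSeries (ZMod 2) →ₗ[ZMod 2] ZMod 2) ∘ₗ Modd.subtype

theorem cogen {x C : Module.End (ZMod 2) Modd} (hxC : Commute x C)
    (hl : ∀ l : ℕ, l.Prime → l ≠ 2 → ∀ f : Modd, ∃ w ∈ V x C 0 f,
      hec l (f : PowerSeries (ZMod 2)) = (w : PowerSeries (ZMod 2)))
    (f : Modd) (hf : ∀ i j, PowerSeries.coeff 1
      (((x ^ i * C ^ j) f : Modd) : PowerSeries (ZMod 2)) = 0) : f = 0 := by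
  have hV : ∀ w ∈ V x C 0 f, PowerSeries.coeff 1 (w : PowerSeries (ZMod 2)) = 0 := by
    intro w hw
    have h : V x C 0 f ≤ LinearMap.ker a1 := by
      rw [V, Submodule.span_le]
      rintro w ⟨i, j, -, rfl⟩
      exact hf i j
    exact h hw
  have h1 : (f : PowerSeries (ZMod 2)) ∈ (V x C 0 f).map Modd.subtype :=
    ⟨f, V_zero_mem f, rfl⟩
  have hst : ∀ l : ℕ, l.Prime → l ≠ 2 → ∀ F ∈ (V x C 0 f).map Modd.subtype,
      hec l F ∈ (V x C 0 f).map Modd.subtype := by
    rintro l hp h2 F ⟨w, hw, rfl⟩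
    obtain ⟨w', hw', e⟩ := hl l hp h2 w
    have h4 := V_trans hxC hw hw'
    rw [Nat.add_zero] at h4
    exact ⟨w', h4, e.symm⟩
  exact Subtype.ext (eq_zero_of_stable (by rintro F ⟨w, -, rfl⟩ n hn; exact coeff_Modd w.2 hn) hst
    (by rintro F ⟨w, hw, rfl⟩; exact hV w hw) h1)

theorem restrict_pow {l m : ℕ} (ml : ∀ F ∈ Modd, hecL l F ∈ Modd)
    (mm : ∀ F ∈ Modd, hecL m F ∈ Modd) (i j : ℕ) (f : Modd) :
    ((((hecL l).restrict ml ^ i * (hecL m).restrict mm ^ j) f : Modd) : PowerSeries (ZMod 2)) =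
      (hecL l ^ i * hecL m ^ j) (f : PowerSeries (ZMod 2)) := by
  have e1 : ∀ {l : ℕ} (ml : ∀ F ∈ Modd, hecL l F ∈ Modd) (j : ℕ) (f : Modd),
      ((((hecL l).restrict ml ^ j) f : Modd) : PowerSeries (ZMod 2)) =
      (hecL l ^ j) (f : PowerSeries (ZMod 2)) := by
    intro l ml j
    induction j with
    | zero => intro f; simp
    | succ j ih =>
      intro f
      rw [pow_succ', pow_succ', Module.End.mul_apply, Module.End.mul_apply, ← ih]
      rfl
  rw [Module.End.mul_apply, Module.End.mul_apply, e1, e1]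

theorem nil_of_cont {u v : ℕ → (ZMod 2)[X]} (hu : ∀ n, ev (u n) = hec 3 (D ^ n))
    (hv : ∀ n, ev (v n) = hec 5 (D ^ n)) (hlu : Low u) (hlv : Low v)
    {x C : Module.End (ZMod 2) Modd} (hxC : Commute x C) (hnil : ∀ f, ∃ K, Nil x C f K)
    (h3 : ∀ f : Modd, ∃ w ∈ V x C 2 f,
      hec 3 (f : PowerSeries (ZMod 2)) = ((x f + w : Modd) : PowerSeries (ZMod 2)))
    (h5 : ∀ f : Modd, ∃ w ∈ V x C 2 f,
      hec 5 (f : PowerSeries (ZMod 2)) = ((C f + w : Modd) : PowerSeries (ZMod 2)))
    (f : (ZMod 2)[X]) (hf : IsOddP f) (N : ℕ) (hfN : ∀ n ∈ f.support, cont n < N) :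
    Nil x C ⟨ev f, ev_mem_Modd hf⟩ N := by
  have m3 : ∀ F ∈ Modd, hecL 3 F ∈ Modd := by
    intro F hF
    obtain ⟨w, -, hw⟩ := h3 ⟨F, hF⟩
    rw [hecL_apply, show hec 3 F = _ from hw]
    exact (x ⟨F, hF⟩ + w).2
  have m5 : ∀ F ∈ Modd, hecL 5 F ∈ Modd := by
    intro F hF
    obtain ⟨w, -, hw⟩ := h5 ⟨F, hF⟩
    rw [hecL_apply, show hec 5 F = _ from hw]
    exact (C ⟨F, hF⟩ + w).2
  have hS : ∀ f, (hecL 3).restrict m3 f - x f ∈ V x C 2 f := by
    intro f
    obtain ⟨w, hw, hw'⟩ := h3 f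
    have h : (hecL 3).restrict m3 f = x f + w := Subtype.ext hw'
    rw [h, add_sub_cancel_left]
    exact hw
  have hT : ∀ f, (hecL 5).restrict m5 f - C f ∈ V x C 2 f := by
    intro f
    obtain ⟨w, hw, hw'⟩ := h5 f
    have h : (hecL 5).restrict m5 f = C f + w := Subtype.ext hw'
    rw [h, add_sub_cancel_left]
    exact hw
  intro i j hij
  obtain ⟨K, hK⟩ := hnil ⟨ev f, ev_mem_Modd hf⟩
  have h1 := V_le_V hxC hS hT hK (i + j) (mem_V le_rfl _)
  have h2 : V ((hecL 3).restrict m3) ((hecL 5).restrict m5) (i + j)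
      ⟨ev f, ev_mem_Modd hf⟩ = ⊥ := by
    refine V_nil fun a b hab => Subtype.ext ?_
    rw [restrict_pow, ← ev_pow_pow hu hv, pow_mul_pow_eq_zero (opOf_lows hlu) (opOf_lows hlv) a b f
      (fun n hn => (hfN n hn).trans_le (hij.trans hab)), map_zero]
    rfl
  rw [h2] at h1
  exact (Submodule.mem_bot _).1 h1

/-- The odd polynomials of small degree in `Modd`. -/
noncomputable def emb (K : ℕ) : (Fin K → ZMod 2) →ₗ[ZMod 2] Modd where
  toFun c := ⟨ev (oddMap K c), ev_mem_Modd (oddMap_isOdd K c)⟩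
  map_add' c d := by apply Subtype.ext; simp
  map_smul' b c := by apply Subtype.ext; simp

theorem emb_inj (K : ℕ) : Function.Injective (emb K) := by
  intro c d h
  exact oddMap_inj K (ev_injective (congrArg Subtype.val h))

/-- The array of the first coefficients. -/
noncomputable def arr (x C : Module.End (ZMod 2) Modd) (K : ℕ) :
    (Fin K → ZMod 2) →ₗ[ZMod 2] (ℕ → ℕ → ZMod 2) where
  toFun c i j := a1 ((x ^ i * C ^ j) (emb K c))
  map_add' c d := by ext i j; simp
  map_smul' b c := by ext i j; simp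

theorem arr_apply (x C : Module.End (ZMod 2) Modd) (K : ℕ) (c : Fin K → ZMod 2) (i j : ℕ) :
    arr x C K c i j = a1 ((x ^ i * C ^ j) (emb K c)) := rfl

/-- **Chapter A in the letters `x`, `C`.** -/
theorem faithful_xC {u v : ℕ → (ZMod 2)[X]} (hu : ∀ n, ev (u n) = hec 3 (D ^ n))
    (hv : ∀ n, ev (v n) = hec 5 (D ^ n)) (hlu : Low u) (hlv : Low v)
    {x C : Module.End (ZMod 2) Modd} (hxC : Commute x C) (hnil : ∀ f, ∃ K, Nil x C f K)
    (h3 : ∀ f : Modd, ∃ w ∈ V x C 2 f,
      hec 3 (f : PowerSeries (ZMod 2)) = ((x f + w : Modd) : PowerSeries (ZMod 2)))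
    (h5 : ∀ f : Modd, ∃ w ∈ V x C 2 f,
      hec 5 (f : PowerSeries (ZMod 2)) = ((C f + w : Modd) : PowerSeries (ZMod 2)))
    (hl : ∀ l : ℕ, l.Prime → l ≠ 2 → ∀ f : Modd, ∃ w ∈ V x C 0 f,
      hec l (f : PowerSeries (ZMod 2)) = (w : PowerSeries (ZMod 2)))
    (P : ℕ → ℕ → ZMod 2)
    (hP : ∀ f K, Nil x C f K →
      ∑ i ∈ Finset.range K, ∑ j ∈ Finset.range K, P i j • (x ^ i * C ^ j) f = 0)
    (p q : ℕ) : P p q = 0 := by
  by_contra hne
  obtain ⟨p₀, q₀, h0, hlow, hext⟩ := exists_extreme ⟨p, q, hne⟩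
  obtain ⟨K, N, hKN, hK⟩ := room (p₀ + q₀)
  have hEN : ∀ c, Nil x C (emb K c) N := fun c =>
    nil_of_cont hu hv hlu hlv hxC hnil h3 h5 _ (oddMap_isOdd K c) N fun n hn =>
      hKN n (oddMap_support K c n hn).2
  have hinj : Function.Injective (arr x C K) := by
    rw [← LinearMap.ker_eq_bot, LinearMap.ker_eq_bot']
    intro c hc
    apply emb_inj
    rw [map_zero]
    refine cogen hxC hl _ fun i j => ?_
    change a1 ((x ^ i * C ^ j) (emb K c)) = 0
    rw [← arr_apply, hc]
    rfl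
  have hzero : ∀ c i j, N ≤ i + j → arr x C K c i j = 0 := by
    intro c i j hij
    rw [arr_apply, hEN c i j hij, map_zero]
  have hrel : ∀ c i j, ∑ p ∈ Finset.range N, ∑ q ∈ Finset.range N,
      P p q * arr x C K c (i + p) (j + q) = 0 := by
    intro c i j
    have h1 := hP _ N (hEN c)
    have h2 : a1 ((x ^ i * C ^ j) (∑ p ∈ Finset.range N, ∑ q ∈ Finset.range N,
        P p q • (x ^ p * C ^ q) (emb K c))) = 0 := by rw [h1, map_zero, map_zero]
    rw [map_sum, map_sum] at h2
    rw [← h2]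
    refine Finset.sum_congr rfl fun p _ => ?_
    rw [map_sum, map_sum]
    refine Finset.sum_congr rfl fun q _ => ?_
    rw [map_smul, map_smul, arr_apply, smul_eq_mul, ← Module.End.mul_apply]
    congr 3
    have h3 : Commute (C ^ j) (x ^ p) := (hxC.symm.pow_pow j p)
    calc x ^ (i + p) * C ^ (j + q) = x ^ i * (x ^ p * C ^ j) * C ^ q := by
          rw [pow_add, pow_add]; simp only [mul_assoc]
      _ = x ^ i * (C ^ j * x ^ p) * C ^ q := by rw [h3.eq]
      _ = x ^ i * C ^ j * (x ^ p * C ^ q) := by simp only [mul_assoc]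
  have h := finrank_le (k := ZMod 2) h0 hlow hext (arr x C K) hinj hzero hrel
  rw [Module.finrank_fintype_fun_eq_card, Fintype.card_fin] at h
  omega

end Vale.Agent.P022.H30
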