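import Vale.Agent.P022.H30.Glue

/-!
# Operators near `T_3`, `T_5` act faithfully
-/

namespace Vale.Agent.P022.H30

open Polynomial

section Abstract

variable {k : Type*} [Field k] {M : Type*} [AddCommGroup M] [Module k M]
variable {x C S T : Module.End k M}

theorem near_mem (h : Commute S T) (hx : ∀ f, x f - S f ∈ V S T 2 f)
    (hC : ∀ f, C f - T f ∈ V S T 2 f) (d : ℕ) (f : M) : V x C d f ≤ V S T d f := by
  rw [V, Submodule.span_le]
  rintro w ⟨i, j, hij, rfl⟩
  have h1 := sub_mem h hx hC i j f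
  have h2 : (x ^ i * C ^ j) f = ((x ^ i * C ^ j) f - (S ^ i * T ^ j) f) + (S ^ i * T ^ j) f := by
    abel
  rw [SetLike.mem_coe, h2]
  exact add_mem (V_le (by omega) f h1) (mem_V hij f)

theorem near_nil (h : Commute S T) (hx : ∀ f, x f - S f ∈ V S T 2 f)
    (hC : ∀ f, C f - T f ∈ V S T 2 f) {f : M} {N : ℕ} (hN : Nil S T f N) : Nil x C f N := by
  intro i j hij
  have h1 := near_mem h hx hC (i + j) f (mem_V le_rfl f)
  rw [V_nil fun a b hab => hN a b (hij.trans hab)] at h1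
  exact (Submodule.mem_bot _).1 h1

/-- Truncated sums do not depend on the truncation. -/
theorem sum_trunc {f : M} {N : ℕ} (hN : Nil x C f N) (P : ℕ → ℕ → k) {A B : ℕ} (hA : N ≤ A)
    (hB : N ≤ B) : ∑ p ∈ Finset.range A, ∑ q ∈ Finset.range B, P p q • (x ^ p * C ^ q) f =
      ∑ p ∈ Finset.range N, ∑ q ∈ Finset.range N, P p q • (x ^ p * C ^ q) f := by
  have h1 : ∀ p, ∑ q ∈ Finset.range B, P p q • (x ^ p * C ^ q) f =
      ∑ q ∈ Finset.range N, P p q • (x ^ p * C ^ q) f := by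
    intro p
    refine (Finset.sum_subset (Finset.range_subset_range.2 hB) fun q _ hq => ?_).symm
    rw [Finset.mem_range, not_lt] at hq
    rw [hN p q (by omega), smul_zero]
  simp only [h1]
  refine (Finset.sum_subset (Finset.range_subset_range.2 hA) fun p _ hp => ?_).symm
  rw [Finset.mem_range, not_lt] at hp
  refine Finset.sum_eq_zero fun q _ => ?_
  rw [hN p q (by omega), smul_zero]

end Abstract

/-- Nilpotency of `T_3`, `T_5` from the content. -/
theorem nilST {u v : ℕ → (ZMod 2)[X]} (hu : ∀ n, ev (u n) = hec 3 (D ^ n))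
    (hv : ∀ n, ev (v n) = hec 5 (D ^ n)) (hlu : Low u) (hlv : Low v)
    {S T : Module.End (ZMod 2) Modd}
    (hS : ∀ f, ((S f : Modd) : PowerSeries (ZMod 2)) = hecL 3 (f : PowerSeries (ZMod 2)))
    (hT : ∀ f, ((T f : Modd) : PowerSeries (ZMod 2)) = hecL 5 (f : PowerSeries (ZMod 2)))
    (f : (ZMod 2)[X]) (hf : IsOddP f) (N : ℕ) (hfN : ∀ n ∈ f.support, cont n < N) :
    Nil S T ⟨ev f, ev_mem_Modd hf⟩ N := by
  have m3 : ∀ F ∈ Modd, hecL 3 F ∈ Modd := fun F hF => by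
    rw [← hS ⟨F, hF⟩]; exact (S ⟨F, hF⟩).2
  have m5 : ∀ F ∈ Modd, hecL 5 F ∈ Modd := fun F hF => by
    rw [← hT ⟨F, hF⟩]; exact (T ⟨F, hF⟩).2
  have eS : S = (hecL 3).restrict m3 := LinearMap.ext fun f => Subtype.ext (hS f)
  have eT : T = (hecL 5).restrict m5 := LinearMap.ext fun f => Subtype.ext (hT f)
  intro a b hab
  apply Subtype.ext
  rw [eS, eT, restrict_pow, ← ev_pow_pow hu hv, pow_mul_pow_eq_zero (opOf_lows hlu)
    (opOf_lows hlv) a b f (fun n hn => (hfN n hn).trans_le hab), map_zero]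
  rfl

/-- **Operators near `T_3`, `T_5`**: no power series in them kills all small odd polynomials in
`D`. -/
theorem near_main {u v : ℕ → (ZMod 2)[X]} (hu : ∀ n, ev (u n) = hec 3 (D ^ n))
    (hv : ∀ n, ev (v n) = hec 5 (D ^ n)) (hlu : Low u) (hlv : Low v)
    {S T : Module.End (ZMod 2) Modd} (hST : Commute S T)
    (hS : ∀ f, ((S f : Modd) : PowerSeries (ZMod 2)) = hecL 3 (f : PowerSeries (ZMod 2)))
    (hT : ∀ f, ((T f : Modd) : PowerSeries (ZMod 2)) = hecL 5 (f : PowerSeries (ZMod 2)))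
    (ha : ∀ f : Modd, (∀ i j, a1 ((S ^ i * T ^ j) f) = 0) → f = 0)
    (P : ℕ → ℕ → ZMod 2) (hP : ∃ p q, P p q ≠ 0) :
    ∃ K N : ℕ, (∀ c : Fin K → ZMod 2, Nil S T (emb K c) N) ∧
      ∀ x C : Module.End (ZMod 2) Modd, Commute x C → (∀ f, x f - S f ∈ V S T 2 f) →
      (∀ f, C f - T f ∈ V S T 2 f) → ∀ A, N ≤ A → ∀ B, N ≤ B → ∃ c : Fin K → ZMod 2,
      ∑ p ∈ Finset.range A, ∑ q ∈ Finset.range B, P p q • (x ^ p * C ^ q) (emb K c) ≠ 0 := by
  obtain ⟨p₀, q₀, h0, hlow, hext⟩ := exists_extreme hP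
  obtain ⟨K, N, hKN, hK⟩ := room (p₀ + q₀)
  have hnil : ∀ c : Fin K → ZMod 2, Nil S T (emb K c) N := fun c =>
    nilST hu hv hlu hlv hS hT _ (oddMap_isOdd K c) N fun n hn =>
      hKN n (oddMap_support K c n hn).2
  refine ⟨K, N, hnil, fun x C hxC hx hC A hA B hB => ?_⟩
  by_contra hcon
  push Not at hcon
  have hEN : ∀ c, Nil x C (emb K c) N := fun c => near_nil hST hx hC (hnil c)
  have hinj : Function.Injective (arr x C K) := by
    rw [← LinearMap.ker_eq_bot, LinearMap.ker_eq_bot']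
    intro c hc
    apply emb_inj
    rw [map_zero]
    -- the functional vanishes on `V x C 0`, which contains `V S T 0`
    have h1 : V x C 0 (emb K c) ≤ LinearMap.ker a1 := by
      rw [V, Submodule.span_le]
      rintro w ⟨i, j, -, rfl⟩
      change a1 ((x ^ i * C ^ j) (emb K c)) = 0
      rw [← arr_apply, hc]
      rfl
    refine ha _ fun i j => ?_
    have h2 := V_le_V hST (x := S) (C := T) (S := x) (T := C) hx hC (hnil c) 0
      (mem_V (Nat.zero_le (i + j)) _)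
    exact h1 h2
  have hzero : ∀ c i j, N ≤ i + j → arr x C K c i j = 0 := by
    intro c i j hij
    rw [arr_apply, hEN c i j hij, map_zero]
  have hrel : ∀ c i j, ∑ p ∈ Finset.range N, ∑ q ∈ Finset.range N,
      P p q * arr x C K c (i + p) (j + q) = 0 := by
    intro c i j
    have h1 := (sum_trunc (hEN c) P hA hB).symm.trans (hcon c)
    have h2 : a1 ((x ^ i * C ^ j) (∑ p ∈ Finset.range N, ∑ q ∈ Finset.range N,
        P p q • (x ^ p * C ^ q) (emb K c))) = 0 := by rw [h1, map_zero, map_zero]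
    rw [map_sum, map_sum] at h2
    rw [← h2]
    refine Finset.sum_congr rfl fun p _ => ?_
    rw [map_sum, map_sum]
    refine Finset.sum_congr rfl fun q _ => ?_
    rw [map_smul, map_smul, arr_apply, smul_eq_mul, ← Module.End.mul_apply]
    congr 3
    have h3 : Commute (C ^ j) (x ^ p) := (hxC.symm.pow_pow j p)
    calc x ^ (i + p) * C ^ (j + q) = x ^ i * (x ^ p * C ^ j) * C ^ q := by
          rw [pow_add, pow_add]; simp only [mul_assoc]
      _ = x ^ i * (C ^ j * x ^ p) * C ^ q := by rw [h3.eq]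
      _ = x ^ i * C ^ j * (x ^ p * C ^ q) := by simp only [mul_assoc]
  have h := finrank_le (k := ZMod 2) h0 hlow hext (arr x C K) hinj hzero hrel
  rw [Module.finrank_fintype_fun_eq_card, Fintype.card_fin] at h
  omega

/-- The same with one more factor `x`. -/
theorem near_main' {u v : ℕ → (ZMod 2)[X]} (hu : ∀ n, ev (u n) = hec 3 (D ^ n))
    (hv : ∀ n, ev (v n) = hec 5 (D ^ n)) (hlu : Low u) (hlv : Low v)
    {S T : Module.End (ZMod 2) Modd} (hST : Commute S T)
    (hS : ∀ f, ((S f : Modd) : PowerSeries (ZMod 2)) = hecL 3 (f : PowerSeries (ZMod 2)))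
    (hT : ∀ f, ((T f : Modd) : PowerSeries (ZMod 2)) = hecL 5 (f : PowerSeries (ZMod 2)))
    (ha : ∀ f : Modd, (∀ i j, a1 ((S ^ i * T ^ j) f) = 0) → f = 0)
    (P : ℕ → ℕ → ZMod 2) (hP : ∃ p q, P p q ≠ 0) :
    ∃ K N : ℕ, ∀ x C : Module.End (ZMod 2) Modd, Commute x C → (∀ f, x f - S f ∈ V S T 2 f) →
      (∀ f, C f - T f ∈ V S T 2 f) → ∀ A, N ≤ A → ∃ c : Fin K → ZMod 2,
      (x * ∑ p ∈ Finset.range A, ∑ q ∈ Finset.range A, P p q • (x ^ p * C ^ q)) (emb K c) ≠ 0 := by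
  let P' : ℕ → ℕ → ZMod 2 := fun p q => if p = 0 then 0 else P (p - 1) q
  have hP' : ∃ p q, P' p q ≠ 0 := by
    obtain ⟨p, q, h⟩ := hP
    exact ⟨p + 1, q, by simpa [P'] using h⟩
  obtain ⟨K, N, -, h⟩ := near_main hu hv hlu hlv hST hS hT ha P' hP'
  refine ⟨K, N, fun x C hxC hx hC A hA => ?_⟩
  obtain ⟨c, hc⟩ := h x C hxC hx hC (A + 1) (by omega) A hA
  refine ⟨c, fun h0 => hc ?_⟩
  rw [← h0, Finset.sum_range_succ', Module.End.mul_apply, LinearMap.sum_apply, map_sum]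
  have e0 : ∑ q ∈ Finset.range A, P' 0 q • (x ^ 0 * C ^ q) (emb K c) = 0 :=
    Finset.sum_eq_zero fun q _ => by simp [P']
  rw [e0, add_zero]
  refine Finset.sum_congr rfl fun p _ => ?_
  rw [LinearMap.sum_apply, map_sum]
  refine Finset.sum_congr rfl fun q _ => ?_
  have e1 : P' (p + 1) q = P p q := by simp [P']
  rw [e1, LinearMap.smul_apply, map_smul, ← Module.End.mul_apply, ← mul_assoc, ← pow_succ']

end Vale.Agent.P022.H30
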