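import Vale.Agent.P022.H790.A3u
import Vale.Agent.P022.H472.L3.NS5

/-!
# The recursions of `T_3`, `T_5` at all powers of two
-/

namespace Vale.Agent.P022.H30

open Polynomial Vale.Agent.P022.H472.NS Vale.Agent.P022.H790.A

/-- The shift of sequences of polynomials. -/
noncomputable def sh : Module.End (ZMod 2)[X] (ℕ → (ZMod 2)[X]) where
  toFun u n := u (n + 1)
  map_add' _ _ := rfl
  map_smul' _ _ := rfl

theorem sh_pow (k : ℕ) (u : ℕ → (ZMod 2)[X]) (n : ℕ) : (sh ^ k) u n = u (n + k) := by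
  induction k generalizing u n with
  | zero => rfl
  | succ k ih =>
    rw [pow_succ, Module.End.mul_apply, ih]
    change u (n + k + 1) = _
    rfl

theorem two_eq_zero' : (2 : (ZMod 2)[X][X]) = 0 := by
  have : ((2 : ℕ) : (ZMod 2)[X][X]) = 0 := CharP.cast_eq_zero _ 2
  exact_mod_cast this

theorem pow_two_pow_add (j : ℕ) (a b : (ZMod 2)[X][X]) :
    (a + b) ^ 2 ^ j = a ^ 2 ^ j + b ^ 2 ^ j := add_pow_char_pow a b 2 j

theorem add_self' (a : (ZMod 2)[X]) : a + a = 0 := CharTwo.add_self_eq_zero a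

theorem u3_frob (j n : ℕ) : u3 (n + 4 * 2 ^ j) = X ^ 2 ^ j * u3 (n + 2 ^ j) +
    X ^ (4 * 2 ^ j) * u3 n := by
  have h1 : (aeval sh (X ^ 4 + C X * X + C (X ^ 4) : (ZMod 2)[X][X])) u3 = 0 := by
    funext n
    simp only [map_add, map_mul, map_pow, aeval_X, aeval_C, LinearMap.add_apply,
      Module.End.mul_apply, Module.algebraMap_end_apply, Pi.add_apply, Pi.smul_apply,
      smul_eq_mul, sh_pow, Pi.zero_apply]
    change u3 (n + 4) + X * u3 (n + 1) + _ = 0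
    rw [← map_pow, Module.algebraMap_end_apply, Pi.smul_apply, smul_eq_mul, u3_rec]
    linear_combination add_self' (X * u3 (n + 1)) + add_self' (X ^ 4 * u3 n)
  have h2 : (aeval sh ((X ^ 4 + C X * X + C (X ^ 4) : (ZMod 2)[X][X]) ^ 2 ^ j)) u3 = 0 := by
    obtain ⟨m, hm⟩ : ∃ m, 2 ^ j = m + 1 := ⟨2 ^ j - 1, by have := Nat.one_le_two_pow (n := j); omega⟩
    rw [hm, pow_succ, map_mul, Module.End.mul_apply, h1, map_zero]
  rw [pow_two_pow_add, pow_two_pow_add, mul_pow, ← pow_mul, ← map_pow, ← map_pow, ← pow_mul] at h2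
  have h3 := congrFun h2 n
  simp only [map_add, map_mul, map_pow, aeval_X, aeval_C, LinearMap.add_apply,
    Module.End.mul_apply, Pi.add_apply, sh_pow, Pi.zero_apply] at h3
  rw [← map_pow, ← map_pow, Module.algebraMap_end_apply, Module.algebraMap_end_apply,
    Pi.smul_apply, Pi.smul_apply, smul_eq_mul, smul_eq_mul, sh_pow] at h3
  linear_combination h3 - add_self' (X ^ 2 ^ j * u3 (n + 2 ^ j)) -
    add_self' (X ^ (4 * 2 ^ j) * u3 n)

theorem u5_sh : (aeval sh (X ^ 6 + C X * X + C (X ^ 2) * X ^ 4 + C (X ^ 4) * X ^ 2 + C (X ^ 6) :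
    (ZMod 2)[X][X])) u5 = 0 := by
  funext n
  simp only [map_add, map_mul, map_pow, aeval_X, aeval_C, LinearMap.add_apply,
    Module.End.mul_apply, Pi.add_apply, sh_pow, Pi.zero_apply]
  rw [← map_pow, ← map_pow, ← map_pow, Module.algebraMap_end_apply, Module.algebraMap_end_apply,
    Module.algebraMap_end_apply, Module.algebraMap_end_apply, Pi.smul_apply, Pi.smul_apply,
    Pi.smul_apply, Pi.smul_apply, smul_eq_mul, smul_eq_mul, smul_eq_mul, smul_eq_mul, sh_pow,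
    sh_pow]
  change u5 (n + 6) + X * u5 (n + 1) + _ + _ + _ = 0
  rw [u5_rec]
  linear_combination add_self' (X * u5 (n + 1)) + add_self' (X ^ 2 * u5 (n + 4)) +
    add_self' (X ^ 4 * u5 (n + 2)) + add_self' (X ^ 6 * u5 n)

theorem key5 : ∃ Q : (ZMod 2)[X][X], X ^ 16 + C (X ^ 4) * X ^ 4 + C (X ^ 3) * X +
    C (X ^ 16 + X ^ 8) = Q * (X ^ 6 + C X * X + C (X ^ 2) * X ^ 4 + C (X ^ 4) * X ^ 2 +
      C (X ^ 6)) := by
  refine ⟨(X + C X) ^ 10 + C X * (X + C X) ^ 5 + C X ^ 2 * (X + C X) ^ 4 + C X ^ 2, ?_⟩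
  have h16 : (X + C X : (ZMod 2)[X][X]) ^ 16 = X ^ 16 + C X ^ 16 := pow_two_pow_add 4 _ _
  have h4 : (X + C X : (ZMod 2)[X][X]) ^ 4 = X ^ 4 + C X ^ 4 := pow_two_pow_add 2 _ _
  have h2 : (X + C X : (ZMod 2)[X][X]) ^ 2 = X ^ 2 + C X ^ 2 := pow_two_pow_add 1 _ _
  have h6 : (X ^ 6 + C X * X + C (X ^ 2) * X ^ 4 + C (X ^ 4) * X ^ 2 + C (X ^ 6) :
      (ZMod 2)[X][X]) = (X + C X) ^ 6 + C X * (X + C X) + C X ^ 2 := by
    have e : (X + C X : (ZMod 2)[X][X]) ^ 6 = (X + C X) ^ 4 * (X + C X) ^ 2 := by ring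
    rw [e, h4, h2]
    simp only [map_pow]
    linear_combination -(C X ^ 2 : (ZMod 2)[X][X]) * two_eq_zero'
  rw [h6]
  set s : (ZMod 2)[X][X] := X + C X with hs
  have e1 : (X ^ 16 + C (X ^ 4) * X ^ 4 + C (X ^ 3) * X + C (X ^ 16 + X ^ 8) : (ZMod 2)[X][X]) =
      (X ^ 16 + C X ^ 16) + C X ^ 4 * (X ^ 4 + C X ^ 4) + C X ^ 3 * s - C X ^ 4 := by
    rw [hs]
    simp only [map_add, map_pow]
    ring
  rw [e1, ← h16, ← h4]
  linear_combination -(C X ^ 4 + C X * s ^ 11 + C X ^ 2 * s ^ 10 + C X ^ 2 * s ^ 6 +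
    C X ^ 3 * s ^ 5 : (ZMod 2)[X][X]) * two_eq_zero'

theorem u5_frob (j n : ℕ) : u5 (n + 16 * 2 ^ j) = X ^ (16 * 2 ^ j) * u5 n +
    X ^ (4 * 2 ^ j) * u5 (n + 4 * 2 ^ j) + X ^ (8 * 2 ^ j) * u5 n +
    X ^ (3 * 2 ^ j) * u5 (n + 2 ^ j) := by
  obtain ⟨Q, hQ⟩ := key5
  have h1 : (aeval sh (X ^ 16 + C (X ^ 4) * X ^ 4 + C (X ^ 3) * X + C (X ^ 16 + X ^ 8) :
      (ZMod 2)[X][X])) u5 = 0 := by
    rw [hQ, map_mul, Module.End.mul_apply, u5_sh, map_zero]
  have h2 : (aeval sh ((X ^ 16 + C (X ^ 4) * X ^ 4 + C (X ^ 3) * X + C (X ^ 16 + X ^ 8) :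
      (ZMod 2)[X][X]) ^ 2 ^ j)) u5 = 0 := by
    obtain ⟨m, hm⟩ : ∃ m, 2 ^ j = m + 1 := ⟨2 ^ j - 1, by have := Nat.one_le_two_pow (n := j); omega⟩
    rw [hm, pow_succ, map_mul, Module.End.mul_apply, h1, map_zero]
  have e : (X ^ 16 + X ^ 8 : (ZMod 2)[X]) ^ 2 ^ j = X ^ (16 * 2 ^ j) + X ^ (8 * 2 ^ j) := by
    rw [add_pow_char_pow, ← pow_mul, ← pow_mul]
  rw [pow_two_pow_add, pow_two_pow_add, pow_two_pow_add, mul_pow, mul_pow, ← pow_mul, ← pow_mul,
    ← map_pow, ← map_pow, ← map_pow, ← pow_mul, ← pow_mul, e] at h2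
  have h3 := congrFun h2 n
  simp only [map_add, map_mul, aeval_X_pow, aeval_C, LinearMap.add_apply,
    Module.End.mul_apply, Pi.add_apply, sh_pow, Pi.zero_apply, Module.algebraMap_end_apply,
    Pi.smul_apply, smul_eq_mul] at h3
  linear_combination h3 - add_self' (X ^ (16 * 2 ^ j) * u5 n) -
    add_self' (X ^ (4 * 2 ^ j) * u5 (n + 4 * 2 ^ j)) - add_self' (X ^ (8 * 2 ^ j) * u5 n) -
    add_self' (X ^ (3 * 2 ^ j) * u5 (n + 2 ^ j))

/-! ### The arrays of coefficients -/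

/-- The coefficient of `Δ^(2 E + 1)` in `T_3 (Δ^(2 K + 1))`. -/
noncomputable def w3 (K E : ℕ) : ZMod 2 := (u3 (2 * K + 1)).coeff (2 * E + 1)

/-- The coefficient of `Δ^(2 E + 1)` in `T_5 (Δ^(2 K + 1))`. -/
noncomputable def w5 (K E : ℕ) : ZMod 2 := (u5 (2 * K + 1)).coeff (2 * E + 1)

theorem coeff_shift (p : (ZMod 2)[X]) (a E : ℕ) : (X ^ (2 * a) * p).coeff (2 * E + 1) =
    if a ≤ E then p.coeff (2 * (E - a) + 1) else 0 := by
  rw [coeff_X_pow_mul']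
  by_cases h : a ≤ E
  · rw [if_pos (by omega), if_pos h]
    congr 1
    omega
  · rw [if_neg (by omega), if_neg h]

theorem rec3_w3 : Rec3 w3 := by
  intro j M E
  unfold w3
  have e1 : 2 * (M + 4 * 2 ^ j) + 1 = 2 * M + 1 + 4 * 2 ^ (j + 1) := by rw [pow_succ]; ring
  have e2 : 2 ^ (j + 1) = 2 * 2 ^ j := by rw [pow_succ]; ring
  have e3 : 4 * 2 ^ (j + 1) = 2 * (4 * 2 ^ j) := by rw [pow_succ]; ring
  have e4 : 2 * M + 1 + 2 ^ (j + 1) = 2 * (M + 2 ^ j) + 1 := by rw [pow_succ]; ring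
  rw [e1, u3_frob, e4, e3, coeff_add, e2, coeff_shift, coeff_shift]

theorem rec5_w5 : Rec5 w5 := by
  intro j M E
  unfold w5
  have e1 : 2 * (M + 16 * 2 ^ j) + 1 = 2 * M + 1 + 16 * 2 ^ (j + 1) := by rw [pow_succ]; ring
  have e2 : 16 * 2 ^ (j + 1) = 2 * (16 * 2 ^ j) := by rw [pow_succ]; ring
  have e3 : 4 * 2 ^ (j + 1) = 2 * (4 * 2 ^ j) := by rw [pow_succ]; ring
  have e4 : 8 * 2 ^ (j + 1) = 2 * (8 * 2 ^ j) := by rw [pow_succ]; ring
  have e5 : 3 * 2 ^ (j + 1) = 2 * (3 * 2 ^ j) := by rw [pow_succ]; ring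
  have e6 : 2 * M + 1 + 2 * (4 * 2 ^ j) = 2 * (M + 4 * 2 ^ j) + 1 := by ring
  have e7 : 2 * M + 1 + 2 ^ (j + 1) = 2 * (M + 2 ^ j) + 1 := by rw [pow_succ]; ring
  rw [e1, u5_frob, e2, e3, e4, e5, e6, e7, coeff_add, coeff_add, coeff_add, coeff_shift,
    coeff_shift, coeff_shift, coeff_shift]

theorem w3_zero (E : ℕ) : w3 0 E = 0 := by simp [w3, u3]

theorem w3_one (E : ℕ) : w3 1 E = if E = 0 then 1 else 0 := by
  unfold w3
  rw [show 2 * 1 + 1 = 3 by norm_num, u3, coeff_X]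
  by_cases h : E = 0
  · rw [if_pos (by omega), if_pos h]
  · rw [if_neg (by omega), if_neg h]

theorem w3_two (E : ℕ) : w3 2 E = 0 := by
  unfold w3
  rw [show 2 * 2 + 1 = 1 + 4 by norm_num, u3_rec]
  simp [u3]

theorem w3_three (E : ℕ) : w3 3 E = if E = 2 then 1 else 0 := by
  unfold w3
  rw [show 2 * 3 + 1 = 3 + 4 by norm_num, u3_rec, show 3 + 1 = 0 + 4 by norm_num, u3_rec]
  have e : (X * (X * u3 (0 + 1) + X ^ 4 * u3 0) + X ^ 4 * u3 3 : (ZMod 2)[X]) = X ^ 5 := by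
    simp only [u3, zero_add]
    ring
  rw [e, coeff_X_pow]
  by_cases h : E = 2
  · rw [if_pos (by omega), if_pos h]
  · rw [if_neg (by omega), if_neg h]

/-- Bit masks of the polynomials `u5 n`, `n < 32`. -/
def mk5 : List ℕ := [0, 0, 0, 0, 0, 2, 0, 8, 0, 0, 4, 0, 0, 512, 64, 2056, 0, 32, 0, 128, 16,
  131584, 0, 526336, 0, 8224, 262144, 32896, 4096, 33685504, 4194368, 134217728]

theorem mk5_rec : ∀ n < 26, mk5.getD (n + 6) 0 = ((mk5.getD (n + 1) 0) <<< 1) ^^^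
    ((mk5.getD (n + 4) 0) <<< 2) ^^^ ((mk5.getD (n + 2) 0) <<< 4) ^^^ ((mk5.getD n 0) <<< 6) := by
  decide

/-- `p` has the exponents of the bit mask `b`. -/
def IsMk (p : (ZMod 2)[X]) (b : ℕ) : Prop := ∀ m, p.coeff m = if b.testBit m then 1 else 0

theorem IsMk.shift {p : (ZMod 2)[X]} {b : ℕ} (h : IsMk p b) (k : ℕ) : IsMk (X ^ k * p) (b <<< k) := by
  intro m
  rw [coeff_X_pow_mul', Nat.testBit_shiftLeft]
  by_cases hk : k ≤ m
  · rw [if_pos hk, h]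
    simp [hk]
  · rw [if_neg hk]
    simp [hk]

theorem IsMk.add {p q : (ZMod 2)[X]} {b c : ℕ} (h : IsMk p b) (h' : IsMk q c) :
    IsMk (p + q) (b ^^^ c) := by
  intro m
  rw [coeff_add, h, h', Nat.testBit_xor]
  cases b.testBit m <;> cases c.testBit m <;> simp <;> decide

theorem isMk_u5 : ∀ n < 32, IsMk (u5 n) (mk5.getD n 0) := by
  intro n
  induction n using Nat.strong_induction_on with
  | _ n ih =>
    intro hn
    by_cases h6 : n < 6
    · have h0 : IsMk 0 0 := by intro m; simp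
      have h1 : IsMk X 2 := by
        intro m
        rw [coeff_X]
        have : Nat.testBit 2 m = decide (1 = m) := by
          rw [show (2 : ℕ) = 2 ^ 1 by norm_num, Nat.testBit_two_pow]
        rw [this]
        simp
      interval_cases n
      · rw [u5]; exact h0
      · rw [u5]; exact h0
      · rw [u5]; exact h0
      · rw [u5]; exact h0
      · rw [u5]; exact h0
      · rw [u5]; exact h1
    · obtain ⟨k, rfl⟩ : ∃ k, n = k + 6 := ⟨n - 6, by omega⟩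
      rw [u5_rec, mk5_rec k (by omega)]
      have a1 := (ih (k + 1) (by omega) (by omega)).shift 1
      rw [pow_one] at a1
      exact ((a1.add ((ih (k + 4) (by omega) (by omega)).shift 2)).add
        ((ih (k + 2) (by omega) (by omega)).shift 4)).add ((ih k (by omega) (by omega)).shift 6)

theorem mk5_lt : ∀ n < 32, mk5.getD n 0 < 2 ^ 32 := by decide

theorem mk5_tab : ∀ K < 16, ∀ E < 16, (mk5.getD (2 * K + 1) 0).testBit (2 * E + 1) =
    decide (E ∈ tab5 K) := by decide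

theorem tab5_lt : ∀ K < 16, ∀ E ∈ tab5 K, E < 16 := by decide

theorem w5_tab (K : ℕ) (hK : K < 16) (E : ℕ) : w5 K E = if E ∈ tab5 K then 1 else 0 := by
  unfold w5
  rw [isMk_u5 _ (by omega)]
  by_cases hE : E < 16
  · rw [mk5_tab K hK E hE]
    simp
  · have h1 : (mk5.getD (2 * K + 1) 0).testBit (2 * E + 1) = false := by
      refine Nat.testBit_lt_two_pow ((mk5_lt _ (by omega)).trans_le
        (Nat.pow_le_pow_right (by norm_num) (by omega)))
    rw [h1, if_neg (fun h => hE (tab5_lt K hK E h))]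
    simp

/-- **Nicolas–Serre for `T_3`.** -/
theorem C3_w3 (K : ℕ) : C3 w3 K := P3 rec3_w3 w3_zero w3_one w3_two w3_three K

/-- **Nicolas–Serre for `T_5`.** -/
theorem C5_w5 (K : ℕ) : C5 w5 K := P5 rec5_w5 w5_tab K

end Vale.Agent.P022.H30
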